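import Mathlib

/-! # P229 block B (Legendre transform in one variable): basic calculus of partial derivatives on `ℝ × ℝ` -/

open Set Filter Topology
open scoped ContDiff

namespace P229.Leg

/-- first partial derivative -/
noncomputable def P1 (f : ℝ × ℝ → ℝ) (z : ℝ × ℝ) : ℝ := fderiv ℝ f z (1, 0)
/-- second partial derivative -/
noncomputable def P2 (f : ℝ × ℝ → ℝ) (z : ℝ × ℝ) : ℝ := fderiv ℝ f z (0, 1)

/-- smooth at every point of a set -/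
def Sm (O : Set (ℝ × ℝ)) (f : ℝ × ℝ → ℝ) : Prop := ∀ z ∈ O, ContDiffAt ℝ ∞ f z

theorem sm_diff {f : ℝ × ℝ → ℝ} {z : ℝ × ℝ} (h : ContDiffAt ℝ ∞ f z) : DifferentiableAt ℝ f z :=
  h.differentiableAt (by simp)

theorem P1_contDiffAt {f : ℝ × ℝ → ℝ} {z : ℝ × ℝ} (h : ContDiffAt ℝ ∞ f z) :
    ContDiffAt ℝ ∞ (P1 f) z :=
  (h.fderiv_right (m := ∞) le_rfl).clm_apply contDiffAt_const

theorem P2_contDiffAt {f : ℝ × ℝ → ℝ} {z : ℝ × ℝ} (h : ContDiffAt ℝ ∞ f z) :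
    ContDiffAt ℝ ∞ (P2 f) z :=
  (h.fderiv_right (m := ∞) le_rfl).clm_apply contDiffAt_const

theorem Sm.P1 {O : Set (ℝ × ℝ)} {f : ℝ × ℝ → ℝ} (h : Sm O f) : Sm O (P1 f) := fun z hz =>
  P1_contDiffAt (h z hz)

theorem Sm.P2 {O : Set (ℝ × ℝ)} {f : ℝ × ℝ → ℝ} (h : Sm O f) : Sm O (P2 f) := fun z hz =>
  P2_contDiffAt (h z hz)

theorem P1_congr {f g : ℝ × ℝ → ℝ} {z : ℝ × ℝ} (h : f =ᶠ[𝓝 z] g) : P1 f z = P1 g z := by
  unfold P1
  rw [h.fderiv_eq]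

theorem P2_congr {f g : ℝ × ℝ → ℝ} {z : ℝ × ℝ} (h : f =ᶠ[𝓝 z] g) : P2 f z = P2 g z := by
  unfold P2
  rw [h.fderiv_eq]

theorem eo_nhds {O : Set (ℝ × ℝ)} (hO : IsOpen O) {f g : ℝ × ℝ → ℝ} (h : ∀ z ∈ O, f z = g z)
    {z : ℝ × ℝ} (hz : z ∈ O) : f =ᶠ[𝓝 z] g :=
  Filter.eventually_of_mem (hO.mem_nhds hz) h

theorem P1_congr_on {O : Set (ℝ × ℝ)} (hO : IsOpen O) {f g : ℝ × ℝ → ℝ}
    (h : ∀ z ∈ O, f z = g z) : ∀ z ∈ O, P1 f z = P1 g z := fun _ hz => P1_congr (eo_nhds hO h hz)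

theorem P2_congr_on {O : Set (ℝ × ℝ)} (hO : IsOpen O) {f g : ℝ × ℝ → ℝ}
    (h : ∀ z ∈ O, f z = g z) : ∀ z ∈ O, P2 f z = P2 g z := fun _ hz => P2_congr (eo_nhds hO h hz)

section rules

variable {f g : ℝ × ℝ → ℝ} {z : ℝ × ℝ}

theorem P1_add (hf : DifferentiableAt ℝ f z) (hg : DifferentiableAt ℝ g z) :
    P1 (fun w => f w + g w) z = P1 f z + P1 g z := by
  unfold P1
  rw [show (fun w => f w + g w) = f + g from rfl, (hf.hasFDerivAt.add hg.hasFDerivAt).fderiv]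
  rfl

theorem P2_add (hf : DifferentiableAt ℝ f z) (hg : DifferentiableAt ℝ g z) :
    P2 (fun w => f w + g w) z = P2 f z + P2 g z := by
  unfold P2
  rw [show (fun w => f w + g w) = f + g from rfl, (hf.hasFDerivAt.add hg.hasFDerivAt).fderiv]
  rfl

theorem P1_sub (hf : DifferentiableAt ℝ f z) (hg : DifferentiableAt ℝ g z) :
    P1 (fun w => f w - g w) z = P1 f z - P1 g z := by
  unfold P1
  rw [show (fun w => f w - g w) = f - g from rfl, (hf.hasFDerivAt.sub hg.hasFDerivAt).fderiv]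
  rfl

theorem P2_sub (hf : DifferentiableAt ℝ f z) (hg : DifferentiableAt ℝ g z) :
    P2 (fun w => f w - g w) z = P2 f z - P2 g z := by
  unfold P2
  rw [show (fun w => f w - g w) = f - g from rfl, (hf.hasFDerivAt.sub hg.hasFDerivAt).fderiv]
  rfl

theorem P1_neg (hf : DifferentiableAt ℝ f z) : P1 (fun w => - f w) z = - P1 f z := by
  unfold P1
  rw [show (fun w => - f w) = - f from rfl, (hf.hasFDerivAt.neg).fderiv]
  rfl

theorem P2_neg (hf : DifferentiableAt ℝ f z) : P2 (fun w => - f w) z = - P2 f z := by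
  unfold P2
  rw [show (fun w => - f w) = - f from rfl, (hf.hasFDerivAt.neg).fderiv]
  rfl

theorem P1_mul (hf : DifferentiableAt ℝ f z) (hg : DifferentiableAt ℝ g z) :
    P1 (fun w => f w * g w) z = P1 f z * g z + f z * P1 g z := by
  unfold P1
  rw [show (fun w => f w * g w) = f * g from rfl, (hf.hasFDerivAt.mul hg.hasFDerivAt).fderiv]
  show f z * fderiv ℝ g z _ + g z * fderiv ℝ f z _ = _
  ring

theorem P2_mul (hf : DifferentiableAt ℝ f z) (hg : DifferentiableAt ℝ g z) :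
    P2 (fun w => f w * g w) z = P2 f z * g z + f z * P2 g z := by
  unfold P2
  rw [show (fun w => f w * g w) = f * g from rfl, (hf.hasFDerivAt.mul hg.hasFDerivAt).fderiv]
  show f z * fderiv ℝ g z _ + g z * fderiv ℝ f z _ = _
  ring

theorem P1_inv (hf : DifferentiableAt ℝ f z) (h0 : f z ≠ 0) :
    P1 (fun w => (f w)⁻¹) z = - P1 f z / f z ^ 2 := by
  unfold P1
  have h := (hasDerivAt_inv h0).comp_hasFDerivAt z hf.hasFDerivAt
  have e : (fun w => (f w)⁻¹) = (fun x : ℝ => x⁻¹) ∘ f := rfl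
  rw [e, h.fderiv]
  show -(f z ^ 2)⁻¹ * fderiv ℝ f z _ = _
  ring

theorem P2_inv (hf : DifferentiableAt ℝ f z) (h0 : f z ≠ 0) :
    P2 (fun w => (f w)⁻¹) z = - P2 f z / f z ^ 2 := by
  unfold P2
  have h := (hasDerivAt_inv h0).comp_hasFDerivAt z hf.hasFDerivAt
  have e : (fun w => (f w)⁻¹) = (fun x : ℝ => x⁻¹) ∘ f := rfl
  rw [e, h.fderiv]
  show -(f z ^ 2)⁻¹ * fderiv ℝ f z _ = _
  ring

/-- chain rule for `φ (X z, z.2)` -/
theorem P1_comp {φ X : ℝ × ℝ → ℝ} (hφ : DifferentiableAt ℝ φ (X z, z.2))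
    (hX : DifferentiableAt ℝ X z) :
    P1 (fun w => φ (X w, w.2)) z = P1 φ (X z, z.2) * P1 X z := by
  unfold P1
  have h1 : HasFDerivAt (fun w : ℝ × ℝ => (X w, w.2))
      ((fderiv ℝ X z).prod (ContinuousLinearMap.snd ℝ ℝ ℝ)) z :=
    hX.hasFDerivAt.prodMk hasFDerivAt_snd
  have h2 := hφ.hasFDerivAt.comp z h1
  have e : (fun w : ℝ × ℝ => φ (X w, w.2)) = φ ∘ (fun w => (X w, w.2)) := rfl
  rw [e, h2.fderiv]
  have h3 : ((fderiv ℝ X z) ((1 : ℝ), (0 : ℝ)), (0 : ℝ)) = (fderiv ℝ X z (1, 0)) • ((1 : ℝ), (0 : ℝ)) := by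
    simp
  simp only [ContinuousLinearMap.comp_apply, ContinuousLinearMap.prod_apply,
    ContinuousLinearMap.coe_snd']
  rw [h3, map_smul, smul_eq_mul, mul_comm]

theorem P2_comp {φ X : ℝ × ℝ → ℝ} (hφ : DifferentiableAt ℝ φ (X z, z.2))
    (hX : DifferentiableAt ℝ X z) :
    P2 (fun w => φ (X w, w.2)) z = P1 φ (X z, z.2) * P2 X z + P2 φ (X z, z.2) := by
  unfold P1 P2
  have h1 : HasFDerivAt (fun w : ℝ × ℝ => (X w, w.2))
      ((fderiv ℝ X z).prod (ContinuousLinearMap.snd ℝ ℝ ℝ)) z :=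
    hX.hasFDerivAt.prodMk hasFDerivAt_snd
  have h2 := hφ.hasFDerivAt.comp z h1
  have e : (fun w : ℝ × ℝ => φ (X w, w.2)) = φ ∘ (fun w => (X w, w.2)) := rfl
  rw [e, h2.fderiv]
  have h3 : ((fderiv ℝ X z) ((0 : ℝ), (1 : ℝ)), (1 : ℝ))
      = (fderiv ℝ X z (0, 1)) • ((1 : ℝ), (0 : ℝ)) + ((0 : ℝ), (1 : ℝ)) := by
    simp
  simp only [ContinuousLinearMap.comp_apply, ContinuousLinearMap.prod_apply,
    ContinuousLinearMap.coe_snd']
  rw [h3, map_add, map_smul, smul_eq_mul, mul_comm]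

end rules

/-- restriction to horizontal lines -/
theorem hasDerivAt_P1 {f : ℝ × ℝ → ℝ} {x y : ℝ} (hf : DifferentiableAt ℝ f (x, y)) :
    HasDerivAt (fun t => f (t, y)) (P1 f (x, y)) x := by
  have h1 : HasDerivAt (fun t : ℝ => (t, y)) ((1 : ℝ), (0 : ℝ)) x :=
    (hasDerivAt_id x).prodMk (hasDerivAt_const x y)
  exact hf.hasFDerivAt.comp_hasDerivAt x h1

/-- restriction to vertical lines -/
theorem hasDerivAt_P2 {f : ℝ × ℝ → ℝ} {x y : ℝ} (hf : DifferentiableAt ℝ f (x, y)) :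
    HasDerivAt (fun t => f (x, t)) (P2 f (x, y)) y := by
  have h1 : HasDerivAt (fun t : ℝ => (x, t)) ((0 : ℝ), (1 : ℝ)) y :=
    (hasDerivAt_const y x).prodMk (hasDerivAt_id y)
  exact hf.hasFDerivAt.comp_hasDerivAt y h1

theorem P1P2_comm {f : ℝ × ℝ → ℝ} {z : ℝ × ℝ} (h : ContDiffAt ℝ ∞ f z) :
    P1 (P2 f) z = P2 (P1 f) z := by
  have hsym : IsSymmSndFDerivAt ℝ f z := h.isSymmSndFDerivAt (by simp; exact WithTop.coe_le_coe.2 le_top)
  have hd : DifferentiableAt ℝ (fderiv ℝ f) z :=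
    (h.fderiv_right (m := ∞) le_rfl).differentiableAt (by simp)
  have e : ∀ a b : ℝ × ℝ, fderiv ℝ (fun w => fderiv ℝ f w a) z b = fderiv ℝ (fderiv ℝ f) z b a := by
    intro a b
    have h1 : HasFDerivAt (fun w => fderiv ℝ f w a)
        ((ContinuousLinearMap.apply ℝ ℝ a).comp (fderiv ℝ (fderiv ℝ f) z)) z :=
      (ContinuousLinearMap.apply ℝ ℝ a).hasFDerivAt.comp z hd.hasFDerivAt
    rw [h1.fderiv]
    rfl
  have e1 : P1 (P2 f) z = fderiv ℝ (fderiv ℝ f) z (1, 0) (0, 1) := e (0, 1) (1, 0)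
  have e2 : P2 (P1 f) z = fderiv ℝ (fderiv ℝ f) z (0, 1) (1, 0) := e (1, 0) (0, 1)
  rw [e1, e2]
  exact hsym (1, 0) (0, 1)

end P229.Leg
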