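import Vale.Agent.P229.B.LDer
import Vale.Agent.P229.Prof

/-! # P229 block B: value/derivative bounds along horizontal lines, bounds for the profile terms -/

open Set Filter Topology
open scoped ContDiff

namespace P229.Leg

/-- value and derivative at `t` are bounded by `K e` -/
def BD (f : ℝ → ℝ) (t K e : ℝ) : Prop := ∃ f' : ℝ, HasDerivAt f f' t ∧ |f t| ≤ K * e ∧ |f'| ≤ K * e

variable {f g : ℝ → ℝ} {t K L e : ℝ}

theorem BD.add (hf : BD f t K e) (hg : BD g t L e) : BD (fun s => f s + g s) t (K + L) e := by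
  obtain ⟨f', h1, h2, h3⟩ := hf
  obtain ⟨g', k1, k2, k3⟩ := hg
  exact ⟨f' + g', h1.add k1, (abs_add_le _ _).trans (by linarith), (abs_add_le _ _).trans (by linarith)⟩

theorem BD.sub (hf : BD f t K e) (hg : BD g t L e) : BD (fun s => f s - g s) t (K + L) e := by
  obtain ⟨f', h1, h2, h3⟩ := hf
  obtain ⟨g', k1, k2, k3⟩ := hg
  exact ⟨f' - g', h1.sub k1, (abs_sub _ _).trans (by linarith), (abs_sub _ _).trans (by linarith)⟩

theorem BD.neg (hf : BD f t K e) : BD (fun s => - f s) t K e := by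
  obtain ⟨f', h1, h2, h3⟩ := hf
  exact ⟨-f', h1.neg, by rwa [abs_neg], by rwa [abs_neg]⟩

theorem BD.mul (hK : 0 ≤ K) (hL : 0 ≤ L) (he : 0 ≤ e) (hf : BD f t K e) (hg : BD g t L 1) :
    BD (fun s => f s * g s) t (2 * K * L) e := by
  obtain ⟨f', h1, h2, h3⟩ := hf
  obtain ⟨g', k1, k2, k3⟩ := hg
  rw [mul_one] at k2 k3
  have hKe : 0 ≤ K * e := mul_nonneg hK he
  have e1 : |f t * g t| ≤ (K * e) * L := by
    rw [abs_mul]
    exact mul_le_mul h2 k2 (abs_nonneg _) hKe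
  have e2 : |f' * g t| ≤ (K * e) * L := by
    rw [abs_mul]
    exact mul_le_mul h3 k2 (abs_nonneg _) hKe
  have e3 : |f t * g'| ≤ (K * e) * L := by
    rw [abs_mul]
    exact mul_le_mul h2 k3 (abs_nonneg _) hKe
  have e4 : 0 ≤ (K * e) * L := mul_nonneg hKe hL
  refine ⟨f' * g t + f t * g', h1.mul k1, by linarith, ?_⟩
  exact (abs_add_le _ _).trans (by linarith)

theorem BD.mono (he : 0 ≤ e) (hKL : K ≤ L) (hf : BD f t K e) : BD f t L e := by
  obtain ⟨f', h1, h2, h3⟩ := hf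
  have := mul_le_mul_of_nonneg_right hKL he
  exact ⟨f', h1, by linarith, by linarith⟩

theorem BD.one (hK : 0 ≤ K) (he : e ≤ 1) (hf : BD f t K e) : BD f t K 1 := by
  obtain ⟨f', h1, h2, h3⟩ := hf
  have := mul_le_mul_of_nonneg_left he hK
  exact ⟨f', h1, by linarith, by linarith⟩

theorem BD.const (c : ℝ) (hc : |c| ≤ K) (hK : 0 ≤ K) : BD (fun _ => c) t K 1 :=
  ⟨0, hasDerivAt_const t c, by rwa [mul_one], by rw [abs_zero, mul_one]; exact hK⟩

theorem BD.smul (c : ℝ) (hc : |c| ≤ 1) (hK : 0 ≤ K) (he : 0 ≤ e) (hf : BD f t K e) :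
    BD (fun s => c * f s) t K e := by
  obtain ⟨f', h1, h2, h3⟩ := hf
  have hKe : 0 ≤ K * e := mul_nonneg hK he
  refine ⟨c * f', h1.const_mul c, ?_, ?_⟩
  · rw [abs_mul]
    exact (mul_le_of_le_one_left (abs_nonneg _) hc).trans h2
  · rw [abs_mul]
    exact (mul_le_of_le_one_left (abs_nonneg _) hc).trans h3

theorem BD.congr (hf : BD f t K e) (h : ∀ s, g s = f s) : BD g t K e := by
  have : g = f := funext h
  rwa [this]

/-- the solved equation: `u_yy` in terms of the other quantities -/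
theorem pde_bd {r mu : ℝ} (hr0 : 0 ≤ r) (hr1 : r ≤ 1) (he0 : 0 ≤ e) (he1 : e ≤ 1) (hL : 1 ≤ L)
    (hmu : |mu| ≤ L) {B iB bx by' bxx W A M : ℝ → ℝ} (ht : |t| ≤ L)
    (hB : BD B t L 1) (hiB : BD iB t L 1) (hbx : BD bx t L e) (hby : BD by' t L e)
    (hbxx : BD bxx t L e) (hW : BD W t L 1) (hA : BD A t L 1) (hM : BD M t L 1) :
    BD (fun s => -(2 * (r ^ 2 * bx s * (-W s * iB s)) * M s
      + (r ^ 2 * bx s * (-W s * iB s)) ^ 2 * A s
      - B s * (mu - r ^ 2 * (s ^ 2 + (-W s * iB s) ^ 2)) * bxx s * A s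
      + r ^ 2 * ((-W s * iB s) * by' s - B s * s * bx s))) t (176 * L ^ 7) e := by
  have hL0 : 0 ≤ L := by linarith
  have hr2 : |r ^ 2| ≤ 1 := by
    rw [abs_of_nonneg (by positivity)]
    nlinarith
  have hq : BD (fun s => -W s * iB s) t (2 * L * L) 1 :=
    BD.mul hL0 hL0 zero_le_one hW.neg hiB
  have hq0 : 0 ≤ 2 * L * L := by positivity
  have hid : BD (fun s => s) t L 1 := ⟨1, hasDerivAt_id t, by rwa [mul_one], by rw [abs_one, mul_one]; exact hL⟩
  -- tau
  have htau : BD (fun s => r ^ 2 * bx s * (-W s * iB s)) t (4 * L ^ 3) e := by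
    have h1 := BD.smul (r ^ 2) hr2 hL0 he0 hbx
    have h2 := BD.mul hL0 hq0 he0 h1 hq
    refine (h2.mono he0 (le_of_eq ?_))
    ring
  have ht0 : 0 ≤ 4 * L ^ 3 := by positivity
  have h1 : BD (fun s => 2 * (r ^ 2 * bx s * (-W s * iB s)) * M s) t (16 * L ^ 4) e := by
    have h2 := BD.mul ht0 hL0 he0 htau hM
    have h3 := h2.add h2
    refine (h3.congr fun s => ?_).mono he0 (le_of_eq ?_)
    · ring
    · ring
  have h2 : BD (fun s => (r ^ 2 * bx s * (-W s * iB s)) ^ 2 * A s) t (64 * L ^ 7) e := by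
    have h3 := BD.mul ht0 ht0 he0 htau (htau.one ht0 he1)
    have h4 := BD.mul (by positivity) hL0 he0 h3 hA
    refine (h4.congr fun s => ?_).mono he0 (le_of_eq ?_)
    · ring
    · ring
  have hvar : BD (fun s => mu - r ^ 2 * (s ^ 2 + (-W s * iB s) ^ 2)) t (11 * L ^ 4) 1 := by
    have h3 := BD.mul hL0 hL0 zero_le_one hid hid
    have h4 := BD.mul hq0 hq0 zero_le_one hq hq
    have h5 := BD.smul (r ^ 2) hr2 (by positivity) zero_le_one (h3.add h4)
    have h6 := (BD.const (t := t) mu hmu hL0).sub h5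
    refine (h6.congr fun s => ?_).mono zero_le_one ?_
    · ring
    · have a1 : L ≤ L ^ 4 := le_self_pow₀ hL (by norm_num)
      have a2 : L ^ 2 ≤ L ^ 4 := pow_le_pow_right₀ hL (by norm_num)
      have a3 : 2 * (2 * L * L) * (2 * L * L) = 8 * L ^ 4 := by ring
      nlinarith
  have h3 : BD (fun s => B s * (mu - r ^ 2 * (s ^ 2 + (-W s * iB s) ^ 2)) * bxx s * A s) t
      (88 * L ^ 7) e := by
    have h4 := BD.mul hL0 hL0 he0 hbxx hA
    have h5 := BD.mul (by positivity) hL0 he0 h4 hB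
    have h6 := BD.mul (by positivity) (by positivity) he0 h5 hvar
    refine (h6.congr fun s => ?_).mono he0 (le_of_eq ?_)
    · ring
    · ring
  have h4 : BD (fun s => r ^ 2 * ((-W s * iB s) * by' s - B s * s * bx s)) t (8 * L ^ 3) e := by
    have h5 := BD.mul hL0 hq0 he0 hby hq
    have h6 := BD.mul hL0 hL0 he0 hbx hid
    have h7 := BD.mul (by positivity) hL0 he0 h6 hB
    have h8 := BD.smul (r ^ 2) hr2 (by positivity) he0 (h5.sub h7)
    refine (h8.congr fun s => ?_).mono he0 (le_of_eq ?_)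
    · ring
    · ring
  have h5 := (((h1.add h2).sub h3).add h4).neg
  refine h5.mono he0 ?_
  have a1 : L ^ 4 ≤ L ^ 7 := pow_le_pow_right₀ hL (by norm_num)
  have a2 : L ^ 3 ≤ L ^ 7 := pow_le_pow_right₀ hL (by norm_num)
  nlinarith

end P229.Leg
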