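import Vale.Agent.P229.B.LInv
import Vale.Agent.P229.Interface

/-! # P229 block B: conversion between curried functions (`dx`, `dy`) and `P1`, `P2`; mean values -/

open Set Filter Topology
open scoped ContDiff

namespace P229.Leg

/-- a curried function coincides with an uncurried one on `O` -/
def Rel (O : Set (ℝ × ℝ)) (g : ℝ → ℝ → ℝ) (G : ℝ × ℝ → ℝ) : Prop := ∀ x y, (x, y) ∈ O → g x y = G (x, y)

theorem Rel.dx {O : Set (ℝ × ℝ)} (hO : IsOpen O) {g : ℝ → ℝ → ℝ} {G : ℝ × ℝ → ℝ} (hG : Sm O G)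
    (h : Rel O g G) : Rel O (P229.dx g) (P1 G) := by
  intro x y hxy
  have h1 : (fun t => g t y) =ᶠ[𝓝 x] fun t => G (t, y) := by
    have hc : Tendsto (fun t : ℝ => (t, y)) (𝓝 x) (𝓝 (x, y)) := by
      have : Continuous fun t : ℝ => (t, y) := by fun_prop
      exact this.tendsto x
    filter_upwards [hc (hO.mem_nhds hxy)] with t ht
    exact h t y ht
  unfold P229.dx
  rw [h1.deriv_eq]
  exact (hasDerivAt_P1 (sm_diff (hG _ hxy))).deriv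

theorem Rel.dy {O : Set (ℝ × ℝ)} (hO : IsOpen O) {g : ℝ → ℝ → ℝ} {G : ℝ × ℝ → ℝ} (hG : Sm O G)
    (h : Rel O g G) : Rel O (P229.dy g) (P2 G) := by
  intro x y hxy
  have h1 : (fun t => g x t) =ᶠ[𝓝 y] fun t => G (x, t) := by
    have hc : Tendsto (fun t : ℝ => (x, t)) (𝓝 y) (𝓝 (x, y)) := by
      have : Continuous fun t : ℝ => (x, t) := by fun_prop
      exact this.tendsto y
    filter_upwards [hc (hO.mem_nhds hxy)] with t ht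
    exact h x t ht
  unfold P229.dy
  rw [h1.deriv_eq]
  exact (hasDerivAt_P2 (sm_diff (hG _ hxy))).deriv

theorem Rel.congr {O : Set (ℝ × ℝ)} {g : ℝ → ℝ → ℝ} {G H : ℝ × ℝ → ℝ} (h : Rel O g G)
    (h' : ∀ z ∈ O, G z = H z) : Rel O g H := fun x y hxy => (h x y hxy).trans (h' _ hxy)

/-- mean value estimate in a box -/
theorem box_mv {a b : ℝ} {G : ℝ × ℝ → ℝ} (hG : Sm (Box a b) G) {m₁ m₂ : ℝ}
    (h1 : ∀ z ∈ Box a b, |P1 G z| ≤ m₁) (h2 : ∀ z ∈ Box a b, |P2 G z| ≤ m₂) {x y : ℝ}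
    (hx : |x| < a) (hy : |y| < b) : |G (x, y) - G (0, 0)| ≤ m₁ * |x| + m₂ * |y| := by
  have ha : 0 < a := (abs_nonneg x).trans_lt hx
  have hb : 0 < b := (abs_nonneg y).trans_lt hy
  have e1 : |G (x, y) - G (0, y)| ≤ m₁ * |x| := by
    have hm : ∀ t ∈ Ioo (-a) a, (t, y) ∈ Box a b := fun t ht => ⟨abs_lt.2 ht, hy⟩
    have := (convex_Ioo (-a) a).norm_image_sub_le_of_norm_hasDerivWithin_le
      (f := fun t => G (t, y)) (f' := fun t => P1 G (t, y)) (C := m₁)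
      (fun t ht => (hasDerivAt_P1 (sm_diff (hG _ (hm t ht)))).hasDerivWithinAt)
      (fun t ht => h1 _ (hm t ht)) (x := 0) (y := x) ⟨by linarith, ha⟩ (abs_lt.1 hx)
    simpa using this
  have e2 : |G (0, y) - G (0, 0)| ≤ m₂ * |y| := by
    have hm : ∀ t ∈ Ioo (-b) b, ((0 : ℝ), t) ∈ Box a b := fun t ht => ⟨by simpa using ha, abs_lt.2 ht⟩
    have := (convex_Ioo (-b) b).norm_image_sub_le_of_norm_hasDerivWithin_le
      (f := fun t => G (0, t)) (f' := fun t => P2 G (0, t)) (C := m₂)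
      (fun t ht => (hasDerivAt_P2 (sm_diff (hG _ (hm t ht)))).hasDerivWithinAt)
      (fun t ht => h2 _ (hm t ht)) (x := 0) (y := y) ⟨by linarith, hb⟩ (abs_lt.1 hy)
    simpa using this
  calc |G (x, y) - G (0, 0)| = |(G (x, y) - G (0, y)) + (G (0, y) - G (0, 0))| := by
        congr 1; ring
    _ ≤ _ := (abs_add_le _ _).trans (add_le_add e1 e2)

/-- the box of the height function -/
abbrev BZ : Set (ℝ × ℝ) := Box (17 / 10) (22 / 10)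

/-- `GoodZ` in terms of `P1`, `P2` -/
structure ZP (r C1 : ℝ) (F : ℝ × ℝ → ℝ) : Prop where
  sm : Sm BZ F
  F0 : F (0, 0) = 0
  x0 : P1 F (0, 0) = 0
  y0 : P2 F (0, 0) = 0
  xx0 : P1 (P1 F) (0, 0) = 1
  xy0 : |P2 (P1 F) (0, 0)| ≤ 1 / 100
  yy : ∀ z ∈ BZ, |P2 (P2 F) z| ≤ C1
  xxx : ∀ z ∈ BZ, |P1 (P1 (P1 F)) z| ≤ C1 * r
  xxy : ∀ z ∈ BZ, |P2 (P1 (P1 F)) z| ≤ C1 * r
  xyy : ∀ z ∈ BZ, |P2 (P2 (P1 F)) z| ≤ C1 * r
  xxxx : ∀ z ∈ BZ, |P1 (P1 (P1 (P1 F))) z| ≤ C1 * r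
  xxxy : ∀ z ∈ BZ, |P2 (P1 (P1 (P1 F))) z| ≤ C1 * r

theorem BZ_eq : (Ioo (-(17 / 10) : ℝ) (17 / 10) ×ˢ Ioo (-(22 / 10) : ℝ) (22 / 10)) = BZ := by
  ext z
  simp only [mem_prod, mem_Ioo, Box, mem_setOf_eq, abs_lt]

theorem BZ_zero : ((0 : ℝ), (0 : ℝ)) ∈ BZ := by
  constructor <;> norm_num

/-- the relations for `z` -/
theorem zp_rel {P : Par} {mu C1 : ℝ} {z : ℝ → ℝ → ℝ} (h : GoodZ P mu C1 z) :
    Sm BZ (Function.uncurry z) ∧ Rel BZ z (Function.uncurry z) := by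
  refine ⟨fun w hw => ?_, fun x y _ => rfl⟩
  have h1 := h.smooth
  rw [BZ_eq] at h1
  exact h1.contDiffAt ((isOpen_Box _ _).mem_nhds hw)

theorem zp_of_goodZ {P : Par} {mu C1 : ℝ} {z : ℝ → ℝ → ℝ} (h : GoodZ P mu C1 z) :
    ZP P.r C1 (Function.uncurry z) := by
  obtain ⟨hs, hr⟩ := zp_rel h
  have hO := isOpen_Box (17 / 10) (22 / 10)
  have rx := hr.dx hO hs
  have ry := hr.dy hO hs
  have rxx := rx.dx hO hs.P1
  have rxy := rx.dy hO hs.P1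
  have ryy := ry.dy hO hs.P2
  have rxxx := rxx.dx hO hs.P1.P1
  have rxxy := rxx.dy hO hs.P1.P1
  have rxyy := rxy.dy hO hs.P1.P2
  have rxxxx := rxxx.dx hO hs.P1.P1.P1
  have rxxxy := rxxx.dy hO hs.P1.P1.P1
  refine ⟨hs, h.z00, ?_, ?_, ?_, ?_, ?_, ?_, ?_, ?_, ?_, ?_⟩
  · rw [← rx 0 0 BZ_zero, h.zx0]
  · rw [← ry 0 0 BZ_zero, h.zy0]
  · rw [← rxx 0 0 BZ_zero, h.zxx0]
  · rw [← rxy 0 0 BZ_zero]
    exact h.zxy0
  · rintro ⟨x, y⟩ hw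
    rw [← ryy x y hw]
    exact h.zyy x y hw.1 hw.2
  · rintro ⟨x, y⟩ hw
    rw [← rxxx x y hw]
    exact h.zxxx x y hw.1 hw.2
  · rintro ⟨x, y⟩ hw
    rw [← rxxy x y hw]
    exact h.zxxy x y hw.1 hw.2
  · rintro ⟨x, y⟩ hw
    rw [← rxyy x y hw]
    exact h.zxyy x y hw.1 hw.2
  · rintro ⟨x, y⟩ hw
    rw [← rxxxx x y hw]
    exact h.zxxxx x y hw.1 hw.2
  · rintro ⟨x, y⟩ hw
    rw [← rxxxy x y hw]
    exact h.zxxxy x y hw.1 hw.2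

end P229.Leg
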