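import Vale.Agent.P229.B.LConv

/-! # P229 block B: the Legendre potential, its derivatives and their bounds -/

open Set Filter Topology
open scoped ContDiff

namespace P229.Leg

variable {r C1 : ℝ} {F : ℝ × ℝ → ℝ}

theorem zp_hxx (h : ZP r C1 F) (hδ : 0 ≤ C1 * r) :
    ∀ z ∈ BZ, |P1 (P1 F) z - 1| ≤ 4 * (C1 * r) := by
  rintro ⟨x, y⟩ hz
  have h1 := box_mv h.sm.P1.P1 h.xxx h.xxy hz.1 hz.2
  rw [h.xx0] at h1
  have h2 : |x| ≤ 17 / 10 := hz.1.le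
  have h3 : |y| ≤ 22 / 10 := hz.2.le
  nlinarith

theorem zp_hxy (h : ZP r C1 F) (hδ : 0 ≤ C1 * r) :
    ∀ z ∈ BZ, |P2 (P1 F) z| ≤ 1 / 100 + 4 * (C1 * r) := by
  rintro ⟨x, y⟩ hz
  have h0 : ∀ z ∈ BZ, |P1 (P2 (P1 F)) z| ≤ C1 * r := fun z hz => by
    rw [P1P2_comm (h.sm.P1 z hz)]
    exact h.xxy z hz
  have h1 := box_mv h.sm.P1.P2 h0 h.xyy hz.1 hz.2
  have h2 : |x| ≤ 17 / 10 := hz.1.le
  have h3 : |y| ≤ 22 / 10 := hz.2.le
  have h4 := h.xy0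
  have h5 : |P2 (P1 F) (x, y)| ≤ |P2 (P1 F) (x, y) - P2 (P1 F) (0, 0)| + |P2 (P1 F) (0, 0)| := by
    have := abs_add_le (P2 (P1 F) (x, y) - P2 (P1 F) (0, 0)) (P2 (P1 F) (0, 0))
    simpa using this
  nlinarith

theorem zp_hx (h : ZP r C1 F) (hδ : 0 ≤ C1 * r) (hδ2 : C1 * r ≤ 1 / 4000) :
    ∀ x y, (x, y) ∈ BZ → |P1 F (x, y) - x| ≤ 1 / 30 := by
  intro x y hz
  have hs : Sm BZ fun z : ℝ × ℝ => P1 F z - z.1 := fun z hz =>
    (h.sm.P1 z hz).sub contDiffAt_fst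
  have e1 : ∀ z : ℝ × ℝ, P1 (fun z : ℝ × ℝ => z.1) z = 1 := fun z => by
    unfold P1
    rw [fderiv_fst]
    rfl
  have e2 : ∀ z : ℝ × ℝ, P2 (fun z : ℝ × ℝ => z.1) z = 0 := fun z => by
    unfold P2
    rw [fderiv_fst]
    rfl
  have h1 : ∀ z ∈ BZ, |P1 (fun z : ℝ × ℝ => P1 F z - z.1) z| ≤ 4 * (C1 * r) := fun z hz => by
    rw [P1_sub (sm_diff (h.sm.P1 z hz)) differentiableAt_fst, e1]
    exact zp_hxx h hδ z hz
  have h2 : ∀ z ∈ BZ, |P2 (fun z : ℝ × ℝ => P1 F z - z.1) z| ≤ 1 / 100 + 4 * (C1 * r) :=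
    fun z hz => by
    rw [P2_sub (sm_diff (h.sm.P1 z hz)) differentiableAt_fst, e2, sub_zero]
    exact zp_hxy h hδ z hz
  have h3 := box_mv hs h1 h2 hz.1 hz.2
  simp only [h.x0, sub_zero] at h3
  have h4 : |x| ≤ 17 / 10 := hz.1.le
  have h5 : |y| ≤ 22 / 10 := hz.2.le
  have h6 := abs_nonneg x
  have h7 := abs_nonneg y
  nlinarith

theorem zp_hy (h : ZP r C1 F) (hC : 1 ≤ C1) (hδ : 0 ≤ C1 * r) (hδ2 : C1 * r ≤ 1 / 4000) :
    ∀ z ∈ BZ, |P2 F z| ≤ 3 * C1 := by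
  rintro ⟨x, y⟩ hz
  have h0 : ∀ z ∈ BZ, |P1 (P2 F) z| ≤ 1 / 100 + 4 * (C1 * r) := fun z hz => by
    rw [P1P2_comm (h.sm z hz)]
    exact zp_hxy h hδ z hz
  have h1 := box_mv h.sm.P2 h0 h.yy hz.1 hz.2
  rw [h.y0, sub_zero] at h1
  have h2 : |x| ≤ 17 / 10 := hz.1.le
  have h3 : |y| ≤ 22 / 10 := hz.2.le
  have h6 := abs_nonneg x
  have h7 := abs_nonneg y
  nlinarith

theorem zp_dat (h : ZP r C1 F) (hδ : 0 ≤ C1 * r) (hδ2 : C1 * r ≤ 1 / 4000) :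
    Dat (17 / 10) (22 / 10) F :=
  ⟨h.sm, fun z hz => by
    have := (abs_le.1 (zp_hxx h hδ z hz)).1
    linarith⟩

/-- the box of the Legendre potential -/
abbrev BU : Set (ℝ × ℝ) := Box (144 / 100) (208 / 100)

/-- the partial inverse -/
noncomputable abbrev XX (F : ℝ × ℝ → ℝ) : ℝ × ℝ → ℝ := Xf (17 / 10) (22 / 10) F

/-- the image -/
abbrev IM (F : ℝ × ℝ → ℝ) : Set (ℝ × ℝ) := Img (17 / 10) (22 / 10) F

/-- pull back -/
noncomputable abbrev TT (F φ : ℝ × ℝ → ℝ) : ℝ × ℝ → ℝ := Tf (17 / 10) (22 / 10) F φ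

theorem zp_range (h : ZP r C1 F) (hδ : 0 ≤ C1 * r) (hδ2 : C1 * r ≤ 1 / 4000) : BU ⊆ IM F := by
  rintro ⟨p, y⟩ ⟨hp, hy⟩
  have hp' := abs_lt.1 hp
  simp only at hp hy hp'
  have hy2 : |y| < 22 / 10 := hy.trans (by norm_num)
  refine ⟨hy2, ?_⟩
  have hm : ∀ x ∈ Icc (-(3 / 2) : ℝ) (3 / 2), (x, y) ∈ BZ := fun x hx =>
    ⟨abs_lt.2 ⟨by have := hx.1; simp only; linarith, by have := hx.2; simp only; linarith⟩, hy2⟩
  have hc : ContinuousOn (fun x => P1 F (x, y)) (Icc (-(3 / 2) : ℝ) (3 / 2)) := fun x hx =>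
    (hasDerivAt_P1 (sm_diff (h.sm.P1 _ (hm x hx)))).continuousAt.continuousWithinAt
  have h1 := intermediate_value_Icc (by norm_num) hc
  have h2 := abs_le.1 (zp_hx h hδ hδ2 _ y (hm (-(3 / 2)) ⟨le_rfl, by norm_num⟩))
  have h3 := abs_le.1 (zp_hx h hδ hδ2 _ y (hm (3 / 2) ⟨by norm_num, le_rfl⟩))
  have hpm : p ∈ Icc (P1 F (-(3 / 2), y)) (P1 F (3 / 2, y)) :=
    ⟨by linarith [h2.2], by linarith [h3.1]⟩
  obtain ⟨x, hx, hxp⟩ := h1 hpm
  exact ⟨x, (hm x hx).1, hxp⟩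

/-- the Legendre potential -/
noncomputable def UU (F : ℝ × ℝ → ℝ) (w : ℝ × ℝ) : ℝ := w.1 * XX F w - TT F F w

theorem uu_sm (hd : Dat (17 / 10) (22 / 10) F) : Sm (IM F) (UU F) := fun z hz =>
  (contDiffAt_fst.mul (Xf_sm hd z hz)).sub (Tf_sm hd hd.sm z hz)

theorem uu_P1 (hd : Dat (17 / 10) (22 / 10) F) : ∀ z ∈ IM F, P1 (UU F) z = XX F z := by
  intro z hz
  have e1 : P1 (fun z : ℝ × ℝ => z.1) z = 1 := by
    unfold P1
    rw [fderiv_fst]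
    rfl
  have hX := sm_diff (Xf_sm hd z hz)
  have hT := sm_diff (Tf_sm hd hd.sm z hz)
  have h1 : P1 (UU F) z = P1 (fun w : ℝ × ℝ => w.1 * XX F w) z - P1 (TT F F) z :=
    P1_sub (differentiableAt_fst.mul hX) hT
  rw [h1, P1_mul differentiableAt_fst hX, e1, Tf_P1 hd hd.sm z hz, Xf_P1 hd hz]
  have h2 := (Xf_spec hz).2
  unfold Tf Dp
  rw [h2]
  ring

theorem uu_P2 (hd : Dat (17 / 10) (22 / 10) F) :
    ∀ z ∈ IM F, P2 (UU F) z = TT F (fun w => - P2 F w) z := by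
  intro z hz
  have e1 : P2 (fun z : ℝ × ℝ => z.1) z = 0 := by
    unfold P2
    rw [fderiv_fst]
    rfl
  have hX := sm_diff (Xf_sm hd z hz)
  have hT := sm_diff (Tf_sm hd hd.sm z hz)
  have h1 : P2 (UU F) z = P2 (fun w : ℝ × ℝ => w.1 * XX F w) z - P2 (TT F F) z :=
    P2_sub (differentiableAt_fst.mul hX) hT
  rw [h1, P2_mul differentiableAt_fst hX, e1, Tf_P2 hd hd.sm z hz, Xf_P2 hd hz]
  have h2 := (Xf_spec hz).2
  show _ = - P2 F (Xf (17 / 10) (22 / 10) F z, z.2)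
  unfold Tf Dy
  rw [h2]
  ring

/-- `1 / F_xx` -/
noncomputable def al (F : ℝ × ℝ → ℝ) (z : ℝ × ℝ) : ℝ := (P1 (P1 F) z)⁻¹

theorem al_sm (hd : Dat (17 / 10) (22 / 10) F) : Sm BZ (al F) := fun z hz =>
  (hd.sm.P1.P1 z hz).inv (hd.pos z hz).ne'

theorem uu_P11 (hd : Dat (17 / 10) (22 / 10) F) :
    ∀ z ∈ IM F, P1 (P1 (UU F)) z = TT F (al F) z := by
  intro z hz
  rw [P1_congr_on (isOpen_Img hd) (uu_P1 hd) z hz, Xf_P1 hd hz]
  rfl

theorem uu_P21 (hd : Dat (17 / 10) (22 / 10) F) :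
    ∀ z ∈ IM F, P2 (P1 (UU F)) z = TT F (fun w => -(P2 (P1 F) w * al F w)) z := by
  intro z hz
  rw [P2_congr_on (isOpen_Img hd) (uu_P1 hd) z hz, Xf_P2 hd hz]
  show _ = -(P2 (P1 F) (Xf (17 / 10) (22 / 10) F z, z.2)
    * (P1 (P1 F) (Xf (17 / 10) (22 / 10) F z, z.2))⁻¹)
  ring

theorem uu_P22 (hd : Dat (17 / 10) (22 / 10) F) :
    ∀ z ∈ IM F, P2 (P2 (UU F)) z
      = TT F (fun w => -P2 (P2 F) w + P2 (P1 F) w ^ 2 * al F w) z := by
  intro z hz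
  have hs : Sm BZ fun w => - P2 F w := fun z hz => (hd.sm.P2 z hz).neg
  rw [P2_congr_on (isOpen_Img hd) (uu_P2 hd) z hz, Tf_P2 hd hs z hz]
  have hm := Xf_mem hz
  show _ = -P2 (P2 F) (Xf (17 / 10) (22 / 10) F z, z.2)
    + P2 (P1 F) (Xf (17 / 10) (22 / 10) F z, z.2) ^ 2
      * (P1 (P1 F) (Xf (17 / 10) (22 / 10) F z, z.2))⁻¹
  unfold Tf Dy
  rw [P1_neg (sm_diff (hd.sm.P2 _ hm)), P2_neg (sm_diff (hd.sm.P2 _ hm)),
    P1P2_comm (hd.sm _ hm)]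
  ring

theorem uu_P111 (hd : Dat (17 / 10) (22 / 10) F) :
    ∀ z ∈ IM F, P1 (P1 (P1 (UU F))) z = TT F (Dp F (al F)) z := fun z hz => by
  rw [P1_congr_on (isOpen_Img hd) (uu_P11 hd) z hz, Tf_P1 hd (al_sm hd) z hz]

theorem uu_P211 (hd : Dat (17 / 10) (22 / 10) F) :
    ∀ z ∈ IM F, P2 (P1 (P1 (UU F))) z = TT F (Dy F (al F)) z := fun z hz => by
  rw [P2_congr_on (isOpen_Img hd) (uu_P11 hd) z hz, Tf_P2 hd (al_sm hd) z hz]

theorem uu_P1111 (hd : Dat (17 / 10) (22 / 10) F) :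
    ∀ z ∈ IM F, P1 (P1 (P1 (P1 (UU F)))) z = TT F (Dp F (Dp F (al F))) z := fun z hz => by
  rw [P1_congr_on (isOpen_Img hd) (uu_P111 hd) z hz, Tf_P1 hd (Dp_sm hd (al_sm hd)) z hz]

theorem uu_P2111 (hd : Dat (17 / 10) (22 / 10) F) :
    ∀ z ∈ IM F, P2 (P1 (P1 (P1 (UU F)))) z = TT F (Dy F (Dp F (al F))) z := fun z hz => by
  rw [P2_congr_on (isOpen_Img hd) (uu_P111 hd) z hz, Tf_P2 hd (Dp_sm hd (al_sm hd)) z hz]

/-! ### bounds in the old variables -/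

section bounds

variable (h : ZP r C1 F) (hC : 1 ≤ C1) (hr : 0 < r) (hδ2 : C1 * r ≤ 1 / 4000)

include h hC hr hδ2

theorem al_bd : ∀ z ∈ BZ, |al F z - 1| ≤ 1 / 200 ∧ 0 < al F z ∧ al F z ≤ 2 := by
  intro z hz
  have hδ : 0 ≤ C1 * r := by positivity
  have h1 := abs_le.1 (zp_hxx h hδ z hz)
  have h2 : (999 : ℝ) / 1000 ≤ P1 (P1 F) z := by linarith [h1.1]
  have h3 : P1 (P1 F) z ≤ 1001 / 1000 := by linarith [h1.2]
  have h4 : 0 < P1 (P1 F) z := by linarith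
  have h5 : al F z * P1 (P1 F) z = 1 := inv_mul_cancel₀ h4.ne'
  have h6 : 0 < al F z := inv_pos.2 h4
  have h7 : al F z ≤ 2 := by nlinarith
  refine ⟨abs_le.2 ⟨?_, ?_⟩, h6, h7⟩ <;> nlinarith

theorem al_P1 : ∀ z ∈ BZ, P1 (al F) z = - P1 (P1 (P1 F)) z * al F z ^ 2 := by
  intro z hz
  have hd := zp_dat h (by positivity) hδ2
  have h1 := P1_inv (sm_diff (h.sm.P1.P1 z hz)) (hd.pos z hz).ne'
  unfold al
  rw [h1]
  ring

theorem al_P2 : ∀ z ∈ BZ, P2 (al F) z = - P2 (P1 (P1 F)) z * al F z ^ 2 := by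
  intro z hz
  have hd := zp_dat h (by positivity) hδ2
  have h1 := P2_inv (sm_diff (h.sm.P1.P1 z hz)) (hd.pos z hz).ne'
  unfold al
  rw [h1]
  ring

theorem al_P1_bd : ∀ z ∈ BZ, |P1 (al F) z| ≤ 4 * (C1 * r) := by
  intro z hz
  obtain ⟨-, h1, h2⟩ := al_bd h hC hr hδ2 z hz
  rw [al_P1 h hC hr hδ2 z hz, abs_mul, abs_neg, abs_of_pos (pow_pos h1 2)]
  have h3 := h.xxx z hz
  have h4 : al F z ^ 2 ≤ 4 := by nlinarith
  calc |P1 (P1 (P1 F)) z| * al F z ^ 2 ≤ (C1 * r) * 4 :=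
        mul_le_mul h3 h4 (by positivity) (by positivity)
    _ = _ := by ring

theorem al_P2_bd : ∀ z ∈ BZ, |P2 (al F) z| ≤ 4 * (C1 * r) := by
  intro z hz
  obtain ⟨-, h1, h2⟩ := al_bd h hC hr hδ2 z hz
  rw [al_P2 h hC hr hδ2 z hz, abs_mul, abs_neg, abs_of_pos (pow_pos h1 2)]
  have h3 := h.xxy z hz
  have h4 : al F z ^ 2 ≤ 4 := by nlinarith
  calc |P2 (P1 (P1 F)) z| * al F z ^ 2 ≤ (C1 * r) * 4 :=
        mul_le_mul h3 h4 (by positivity) (by positivity)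
    _ = _ := by ring

/-- `P1 P1 al` and `P2 P1 al` -/
theorem al_P11_bd : ∀ z ∈ BZ, |P1 (P1 (al F)) z| ≤ 20 * (C1 * r) := by
  intro z hz
  have hd := zp_dat h (by positivity) hδ2
  have hs := al_sm hd
  have e1 : P1 (P1 (al F)) z = P1 (fun w => (-(P1 (P1 (P1 F)) w)) * (al F w * al F w)) z := by
    refine P1_congr_on (isOpen_Box _ _) (fun w hw => ?_) z hz
    rw [al_P1 h hC hr hδ2 w hw]
    ring
  have d1 := sm_diff (h.sm.P1.P1.P1 z hz)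
  have d2 := sm_diff (hs z hz)
  rw [e1, P1_mul (f := fun w => -(P1 (P1 (P1 F)) w)) (g := fun w => al F w * al F w) d1.neg
    (d2.mul d2), P1_neg d1, P1_mul d2 d2]
  obtain ⟨-, a0, a2⟩ := al_bd h hC hr hδ2 z hz
  have b1 := h.xxxx z hz
  have b2 := h.xxx z hz
  have b3 := al_P1_bd h hC hr hδ2 z hz
  have hδ : 0 ≤ C1 * r := by positivity
  set A := P1 (P1 (P1 (P1 F))) z
  set B := P1 (P1 (P1 F)) z
  set a := al F z
  set a' := P1 (al F) z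
  have e2 : |-A * (a * a) + -B * (a' * a + a * a')| ≤ |A| * (a * a) + |B| * (2 * (a * |a'|)) := by
    refine (abs_add_le _ _).trans ?_
    rw [abs_mul (-A), abs_mul (-B), abs_neg A, abs_neg B, abs_of_pos (mul_pos a0 a0)]
    have : |a' * a + a * a'| ≤ 2 * (a * |a'|) := by
      have h5 : a' * a + a * a' = 2 * (a * a') := by ring
      rw [h5, abs_mul, abs_mul, abs_of_pos a0, abs_of_pos (by norm_num : (0 : ℝ) < 2)]
    gcongr
  refine e2.trans ?_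
  have h6 : |A| * (a * a) ≤ (C1 * r) * 4 := mul_le_mul b1 (by nlinarith) (by positivity) hδ
  have h7 : a * |a'| ≤ 2 * (4 * (C1 * r)) := mul_le_mul a2 b3 (abs_nonneg _) (by norm_num)
  have h8 : |B| * (2 * (a * |a'|)) ≤ (C1 * r) * (2 * (2 * (4 * (C1 * r)))) :=
    mul_le_mul b2 (by linarith) (by positivity) hδ
  nlinarith

theorem al_P21_bd : ∀ z ∈ BZ, |P2 (P1 (al F)) z| ≤ 20 * (C1 * r) := by
  intro z hz
  have hd := zp_dat h (by positivity) hδ2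
  have hs := al_sm hd
  have e1 : P2 (P1 (al F)) z = P2 (fun w => (-(P1 (P1 (P1 F)) w)) * (al F w * al F w)) z := by
    refine P2_congr_on (isOpen_Box _ _) (fun w hw => ?_) z hz
    rw [al_P1 h hC hr hδ2 w hw]
    ring
  have d1 := sm_diff (h.sm.P1.P1.P1 z hz)
  have d2 := sm_diff (hs z hz)
  rw [e1, P2_mul (f := fun w => -(P1 (P1 (P1 F)) w)) (g := fun w => al F w * al F w) d1.neg
    (d2.mul d2), P2_neg d1, P2_mul d2 d2]
  obtain ⟨-, a0, a2⟩ := al_bd h hC hr hδ2 z hz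
  have b1 := h.xxxy z hz
  have b2 := h.xxx z hz
  have b3 := al_P2_bd h hC hr hδ2 z hz
  have hδ : 0 ≤ C1 * r := by positivity
  set A := P2 (P1 (P1 (P1 F))) z
  set B := P1 (P1 (P1 F)) z
  set a := al F z
  set a' := P2 (al F) z
  have e2 : |-A * (a * a) + -B * (a' * a + a * a')| ≤ |A| * (a * a) + |B| * (2 * (a * |a'|)) := by
    refine (abs_add_le _ _).trans ?_
    rw [abs_mul (-A), abs_mul (-B), abs_neg A, abs_neg B, abs_of_pos (mul_pos a0 a0)]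
    have : |a' * a + a * a'| ≤ 2 * (a * |a'|) := by
      have h5 : a' * a + a * a' = 2 * (a * a') := by ring
      rw [h5, abs_mul, abs_mul, abs_of_pos a0, abs_of_pos (by norm_num : (0 : ℝ) < 2)]
    gcongr
  refine e2.trans ?_
  have h6 : |A| * (a * a) ≤ (C1 * r) * 4 := mul_le_mul b1 (by nlinarith) (by positivity) hδ
  have h7 : a * |a'| ≤ 2 * (4 * (C1 * r)) := mul_le_mul a2 b3 (abs_nonneg _) (by norm_num)
  have h8 : |B| * (2 * (a * |a'|)) ≤ (C1 * r) * (2 * (2 * (4 * (C1 * r)))) :=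
    mul_le_mul b2 (by linarith) (by positivity) hδ
  nlinarith

theorem dp_al_bd : ∀ z ∈ BZ, |Dp F (al F) z| ≤ 8 * (C1 * r) := by
  intro z hz
  obtain ⟨-, a0, a2⟩ := al_bd h hC hr hδ2 z hz
  have b3 := al_P1_bd h hC hr hδ2 z hz
  have e : Dp F (al F) z = P1 (al F) z * al F z := rfl
  rw [e, abs_mul, abs_of_pos a0]
  have hδ : 0 ≤ C1 * r := by positivity
  calc |P1 (al F) z| * al F z ≤ (4 * (C1 * r)) * 2 := mul_le_mul b3 a2 a0.le (by positivity)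
    _ = _ := by ring

theorem dy_al_bd : ∀ z ∈ BZ, |Dy F (al F) z| ≤ 8 * (C1 * r) := by
  intro z hz
  have hδ : 0 ≤ C1 * r := by positivity
  obtain ⟨-, a0, a2⟩ := al_bd h hC hr hδ2 z hz
  have b1 := al_P1_bd h hC hr hδ2 z hz
  have b2 := al_P2_bd h hC hr hδ2 z hz
  have b3 := zp_hxy h hδ z hz
  have e : Dy F (al F) z = P2 (al F) z - P1 (al F) z * (P2 (P1 F) z * al F z) := rfl
  rw [e]
  refine (abs_sub _ _).trans ?_
  rw [abs_mul, abs_mul, abs_of_pos a0]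
  have h1 : |P2 (P1 F) z| * al F z ≤ (1 / 100 + 4 * (C1 * r)) * 2 :=
    mul_le_mul b3 a2 a0.le (by positivity)
  have h2 : |P1 (al F) z| * (|P2 (P1 F) z| * al F z) ≤ (4 * (C1 * r)) * 1 := by
    refine mul_le_mul b1 (by linarith) (by positivity) (by positivity)
  linarith

theorem dp2_al_bd : ∀ z ∈ BZ, |Dp F (Dp F (al F)) z| ≤ 100 * (C1 * r) := by
  intro z hz
  have hδ : 0 ≤ C1 * r := by positivity
  have hd := zp_dat h hδ hδ2
  have hs := al_sm hd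
  obtain ⟨-, a0, a2⟩ := al_bd h hC hr hδ2 z hz
  have b1 := al_P1_bd h hC hr hδ2 z hz
  have b2 := al_P11_bd h hC hr hδ2 z hz
  have e : Dp F (Dp F (al F)) z = P1 (fun w => P1 (al F) w * al F w) z * al F z := rfl
  rw [e, P1_mul (sm_diff (hs.P1 z hz)) (sm_diff (hs z hz)), abs_mul, abs_of_pos a0]
  have h1 : |P1 (P1 (al F)) z * al F z + P1 (al F) z * P1 (al F) z|
      ≤ (20 * (C1 * r)) * 2 + (4 * (C1 * r)) * (4 * (C1 * r)) := by
    refine (abs_add_le _ _).trans ?_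
    rw [abs_mul, abs_mul, abs_of_pos a0]
    exact add_le_add (mul_le_mul b2 a2 a0.le (by positivity))
      (mul_le_mul b1 b1 (abs_nonneg _) (by positivity))
  calc _ ≤ ((20 * (C1 * r)) * 2 + (4 * (C1 * r)) * (4 * (C1 * r))) * 2 :=
        mul_le_mul h1 a2 a0.le (by positivity)
    _ ≤ _ := by nlinarith

theorem dydp_al_bd : ∀ z ∈ BZ, |Dy F (Dp F (al F)) z| ≤ 100 * (C1 * r) := by
  intro z hz
  have hδ : 0 ≤ C1 * r := by positivity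
  have hd := zp_dat h hδ hδ2
  have hs := al_sm hd
  obtain ⟨-, a0, a2⟩ := al_bd h hC hr hδ2 z hz
  have b1 := al_P1_bd h hC hr hδ2 z hz
  have b2 := al_P2_bd h hC hr hδ2 z hz
  have b11 := al_P11_bd h hC hr hδ2 z hz
  have b21 := al_P21_bd h hC hr hδ2 z hz
  have b3 := zp_hxy h hδ z hz
  have e : Dy F (Dp F (al F)) z = P2 (fun w => P1 (al F) w * al F w) z
      - P1 (fun w => P1 (al F) w * al F w) z * (P2 (P1 F) z * al F z) := rfl
  rw [e, P1_mul (sm_diff (hs.P1 z hz)) (sm_diff (hs z hz)),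
    P2_mul (sm_diff (hs.P1 z hz)) (sm_diff (hs z hz))]
  have h1 : |P1 (P1 (al F)) z * al F z + P1 (al F) z * P1 (al F) z|
      ≤ (20 * (C1 * r)) * 2 + (4 * (C1 * r)) * (4 * (C1 * r)) := by
    refine (abs_add_le _ _).trans ?_
    rw [abs_mul, abs_mul, abs_of_pos a0]
    exact add_le_add (mul_le_mul b11 a2 a0.le (by positivity))
      (mul_le_mul b1 b1 (abs_nonneg _) (by positivity))
  have h2 : |P2 (P1 (al F)) z * al F z + P1 (al F) z * P2 (al F) z|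
      ≤ (20 * (C1 * r)) * 2 + (4 * (C1 * r)) * (4 * (C1 * r)) := by
    refine (abs_add_le _ _).trans ?_
    rw [abs_mul, abs_mul, abs_of_pos a0]
    exact add_le_add (mul_le_mul b21 a2 a0.le (by positivity))
      (mul_le_mul b1 b2 (abs_nonneg _) (by positivity))
  refine (abs_sub _ _).trans ?_
  rw [abs_mul, abs_mul, abs_of_pos a0]
  have h3 : |P2 (P1 F) z| * al F z ≤ (1 / 100 + 4 * (C1 * r)) * 2 :=
    mul_le_mul b3 a2 a0.le (by positivity)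
  have h4 : |P1 (P1 (al F)) z * al F z + P1 (al F) z * P1 (al F) z| * (|P2 (P1 F) z| * al F z)
      ≤ ((20 * (C1 * r)) * 2 + (4 * (C1 * r)) * (4 * (C1 * r))) * 1 := by
    refine mul_le_mul h1 (by linarith) (by positivity) (by positivity)
  nlinarith

end bounds

end P229.Leg
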