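import Vale.Agent.P229.B.LBasic

/-! # P229 block B: the partial inverse `X` of `p = f_x(x, y)` -/

open Set Filter Topology
open scoped ContDiff

namespace P229.Leg

/-- the linear map `(a, b) ↦ (s a + t b, b)` -/
noncomputable def shA (s t : ℝ) : (ℝ × ℝ) →L[ℝ] (ℝ × ℝ) :=
  (s • ContinuousLinearMap.fst ℝ ℝ ℝ + t • ContinuousLinearMap.snd ℝ ℝ ℝ).prod
    (ContinuousLinearMap.snd ℝ ℝ ℝ)

theorem shA_apply (s t : ℝ) (w : ℝ × ℝ) : shA s t w = (s * w.1 + t * w.2, w.2) := rfl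

/-- the linear equivalence `(a, b) ↦ (s a + t b, b)`, `s ≠ 0` -/
noncomputable def shE (s t : ℝ) (hs : s ≠ 0) : (ℝ × ℝ) ≃L[ℝ] (ℝ × ℝ) :=
  ContinuousLinearEquiv.equivOfInverse (shA s t) (shA s⁻¹ (-(t / s)))
    (fun w => by
      rw [shA_apply, shA_apply]
      ext
      · simp only
        field_simp
        ring
      · rfl)
    (fun w => by
      rw [shA_apply, shA_apply]
      ext
      · simp only
        field_simp
        ring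
      · rfl)

theorem shE_coe (s t : ℝ) (hs : s ≠ 0) : ((shE s t hs : (ℝ × ℝ) ≃L[ℝ] (ℝ × ℝ)) :
    (ℝ × ℝ) →L[ℝ] (ℝ × ℝ)) = shA s t := rfl

/-- the open box -/
def Box (a b : ℝ) : Set (ℝ × ℝ) := {z | |z.1| < a ∧ |z.2| < b}

theorem isOpen_Box (a b : ℝ) : IsOpen (Box a b) :=
  (isOpen_lt (continuous_abs.comp continuous_fst) continuous_const).inter
    (isOpen_lt (continuous_abs.comp continuous_snd) continuous_const)

/-- the data: `f` smooth in the box, `f_xx > 0` there -/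
structure Dat (a b : ℝ) (f : ℝ × ℝ → ℝ) : Prop where
  sm : Sm (Box a b) f
  pos : ∀ z ∈ Box a b, 0 < P1 (P1 f) z

/-- the image of the box under `(x, y) ↦ (f_x(x, y), y)` -/
def Img (a b : ℝ) (f : ℝ × ℝ → ℝ) : Set (ℝ × ℝ) :=
  {z | |z.2| < b ∧ ∃ x, |x| < a ∧ P1 f (x, z.2) = z.1}

open Classical in
/-- the partial inverse -/
noncomputable def Xf (a b : ℝ) (f : ℝ × ℝ → ℝ) (z : ℝ × ℝ) : ℝ :=
  if h : ∃ x, |x| < a ∧ P1 f (x, z.2) = z.1 then h.choose else 0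

theorem Xf_spec {a b : ℝ} {f : ℝ × ℝ → ℝ} {z : ℝ × ℝ} (hz : z ∈ Img a b f) :
    |Xf a b f z| < a ∧ P1 f (Xf a b f z, z.2) = z.1 := by
  unfold Xf
  rw [dif_pos hz.2]
  exact hz.2.choose_spec

theorem Xf_mem {a b : ℝ} {f : ℝ × ℝ → ℝ} {z : ℝ × ℝ} (hz : z ∈ Img a b f) :
    (Xf a b f z, z.2) ∈ Box a b := ⟨(Xf_spec hz).1, hz.1⟩

theorem P1_strictMono {a b : ℝ} {f : ℝ × ℝ → ℝ} (hd : Dat a b f) {y : ℝ} (hy : |y| < b) :
    StrictMonoOn (fun x => P1 f (x, y)) (Ioo (-a) a) := by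
  have hmem : ∀ x ∈ Ioo (-a) a, (x, y) ∈ Box a b := fun x hx => ⟨abs_lt.2 hx, hy⟩
  have hder : ∀ x ∈ Ioo (-a) a, HasDerivAt (fun t => P1 f (t, y)) (P1 (P1 f) (x, y)) x :=
    fun x hx => hasDerivAt_P1 (sm_diff (hd.sm.P1 _ (hmem x hx)))
  refine strictMonoOn_of_deriv_pos (convex_Ioo _ _)
    (fun x hx => (hder x hx).continuousAt.continuousWithinAt) fun x hx => ?_
  rw [interior_Ioo] at hx
  rw [(hder x hx).deriv]
  exact hd.pos _ (hmem x hx)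

theorem Xf_unique {a b : ℝ} {f : ℝ × ℝ → ℝ} (hd : Dat a b f) {x y : ℝ} (hx : |x| < a)
    (hy : |y| < b) : Xf a b f (P1 f (x, y), y) = x := by
  have hz : ((P1 f (x, y), y) : ℝ × ℝ) ∈ Img a b f := ⟨hy, x, hx, rfl⟩
  obtain ⟨h1, h2⟩ := Xf_spec hz
  exact (P1_strictMono hd hy).injOn (abs_lt.1 h1) (abs_lt.1 hx) h2

/-- near a point of the image, the inverse exists and is smooth -/
theorem Xf_smooth {a b : ℝ} {f : ℝ × ℝ → ℝ} (hd : Dat a b f) {z : ℝ × ℝ} (hz : z ∈ Img a b f) :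
    ContDiffAt ℝ ∞ (Xf a b f) z ∧ Img a b f ∈ 𝓝 z := by
  set x₀ : ℝ := Xf a b f z with hx₀
  have hmem : (x₀, z.2) ∈ Box a b := Xf_mem hz
  set w₀ : ℝ × ℝ := (x₀, z.2) with hw₀
  have hP : ContDiffAt ℝ ∞ (P1 f) w₀ := hd.sm.P1 _ hmem
  set Ψ : ℝ × ℝ → ℝ × ℝ := fun w => (P1 f w, w.2) with hΨ
  have hΨs : ContDiffAt ℝ ∞ Ψ w₀ := hP.prodMk contDiffAt_snd
  have hne : P1 (P1 f) w₀ ≠ 0 := (hd.pos _ hmem).ne'
  have hΨd : HasFDerivAt Ψ ((shE (P1 (P1 f) w₀) (P2 (P1 f) w₀) hne : (ℝ × ℝ) ≃L[ℝ] (ℝ × ℝ)) :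
      (ℝ × ℝ) →L[ℝ] (ℝ × ℝ)) w₀ := by
    have h1 : HasFDerivAt Ψ ((fderiv ℝ (P1 f) w₀).prod (ContinuousLinearMap.snd ℝ ℝ ℝ)) w₀ :=
      (sm_diff hP).hasFDerivAt.prodMk hasFDerivAt_snd
    refine h1.congr_fderiv ?_
    rw [shE_coe]
    refine ContinuousLinearMap.ext fun v => ?_
    rw [shA_apply]
    refine Prod.ext ?_ rfl
    show fderiv ℝ (P1 f) w₀ v = _
    have hv : v = v.1 • ((1 : ℝ), (0 : ℝ)) + v.2 • ((0 : ℝ), (1 : ℝ)) := by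
      refine Prod.ext ?_ ?_ <;> simp
    conv_lhs => rw [hv]
    rw [map_add, map_smul, map_smul, smul_eq_mul, smul_eq_mul]
    unfold P1 P2
    ring
  have hn : (∞ : WithTop ℕ∞) ≠ 0 := by simp
  have hΨw : Ψ w₀ = z := Prod.ext (Xf_spec hz).2 rfl
  set Λ := hΨs.localInverse hΨd hn with hΛ
  have hΛs : ContDiffAt ℝ ∞ Λ z := by
    have := hΨs.to_localInverse hΨd hn
    rwa [hΨw] at this
  have hΛ0 : Λ z = w₀ := by
    have := hΨs.localInverse_apply_image hΨd hn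
    rwa [hΨw] at this
  have hri : ∀ᶠ w in 𝓝 z, Ψ (Λ w) = w := by
    have := (hΨs.hasStrictFDerivAt' hΨd hn).eventually_right_inverse
    rw [hΨw] at this
    exact this
  have hbox : ∀ᶠ w in 𝓝 z, Λ w ∈ Box a b := by
    have hc : Tendsto Λ (𝓝 z) (𝓝 w₀) := by
      have := hΛs.continuousAt
      unfold ContinuousAt at this
      rwa [hΛ0] at this
    exact hc ((isOpen_Box a b).mem_nhds hmem)
  have hev : ∀ᶠ w in 𝓝 z, w ∈ Img a b f ∧ Xf a b f w = (Λ w).1 := by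
    filter_upwards [hri, hbox] with w h1 h2
    have e1 : P1 f (Λ w) = w.1 := by
      have := congrArg Prod.fst h1
      exact this
    have e2 : (Λ w).2 = w.2 := by
      have := congrArg Prod.snd h1
      exact this
    have e3 : Λ w = ((Λ w).1, w.2) := by rw [← e2]
    have h3 : |w.2| < b := by rw [← e2]; exact h2.2
    have h4 : w = (P1 f ((Λ w).1, w.2), w.2) := by rw [← e3, e1]
    refine ⟨⟨h3, (Λ w).1, h2.1, by rw [← e3, e1]⟩, ?_⟩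
    conv_lhs => rw [h4]
    exact Xf_unique hd h2.1 h3
  refine ⟨?_, hev.mono fun w hw => hw.1⟩
  have h5 : Xf a b f =ᶠ[𝓝 z] fun w => (Λ w).1 := hev.mono fun w hw => hw.2
  exact (contDiffAt_fst.comp z hΛs).congr_of_eventuallyEq h5

theorem isOpen_Img {a b : ℝ} {f : ℝ × ℝ → ℝ} (hd : Dat a b f) : IsOpen (Img a b f) :=
  isOpen_iff_mem_nhds.2 fun _ hz => (Xf_smooth hd hz).2

theorem Xf_sm {a b : ℝ} {f : ℝ × ℝ → ℝ} (hd : Dat a b f) : Sm (Img a b f) (Xf a b f) :=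
  fun _ hz => (Xf_smooth hd hz).1

/-- the derivatives of `X` -/
theorem Xf_P1 {a b : ℝ} {f : ℝ × ℝ → ℝ} (hd : Dat a b f) {z : ℝ × ℝ} (hz : z ∈ Img a b f) :
    P1 (Xf a b f) z = (P1 (P1 f) (Xf a b f z, z.2))⁻¹ := by
  have hmem := Xf_mem hz
  have hX := sm_diff (Xf_sm hd z hz)
  have h1 := P1_comp (φ := P1 f) (X := Xf a b f) (z := z) (sm_diff (hd.sm.P1 _ hmem)) hX
  have h2 : (fun w : ℝ × ℝ => P1 f (Xf a b f w, w.2)) =ᶠ[𝓝 z] fun w => w.1 :=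
    eo_nhds (isOpen_Img hd) (fun w hw => (Xf_spec hw).2) hz
  rw [P1_congr h2] at h1
  have h3 : P1 (fun w : ℝ × ℝ => w.1) z = 1 := by
    unfold P1
    rw [fderiv_fst]
    rfl
  rw [h3] at h1
  exact (eq_inv_of_mul_eq_one_right h1.symm)

theorem Xf_P2 {a b : ℝ} {f : ℝ × ℝ → ℝ} (hd : Dat a b f) {z : ℝ × ℝ} (hz : z ∈ Img a b f) :
    P2 (Xf a b f) z = - P2 (P1 f) (Xf a b f z, z.2) / P1 (P1 f) (Xf a b f z, z.2) := by
  have hmem := Xf_mem hz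
  have hX := sm_diff (Xf_sm hd z hz)
  have h1 := P2_comp (φ := P1 f) (X := Xf a b f) (z := z) (sm_diff (hd.sm.P1 _ hmem)) hX
  have h2 : (fun w : ℝ × ℝ => P1 f (Xf a b f w, w.2)) =ᶠ[𝓝 z] fun w => w.1 :=
    eo_nhds (isOpen_Img hd) (fun w hw => (Xf_spec hw).2) hz
  rw [P2_congr h2] at h1
  have h3 : P2 (fun w : ℝ × ℝ => w.1) z = 0 := by
    unfold P2
    rw [fderiv_fst]
    rfl
  rw [h3] at h1
  have hpos := hd.pos _ hmem
  rw [eq_div_iff hpos.ne']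
  linarith

/-- the pull back of functions -/
noncomputable def Tf (a b : ℝ) (f φ : ℝ × ℝ → ℝ) (z : ℝ × ℝ) : ℝ := φ (Xf a b f z, z.2)

/-- `∂_p` in the old variables -/
noncomputable def Dp (f φ : ℝ × ℝ → ℝ) (z : ℝ × ℝ) : ℝ := P1 φ z * (P1 (P1 f) z)⁻¹

/-- `∂_y` in the old variables -/
noncomputable def Dy (f φ : ℝ × ℝ → ℝ) (z : ℝ × ℝ) : ℝ :=
  P2 φ z - P1 φ z * (P2 (P1 f) z * (P1 (P1 f) z)⁻¹)

theorem Tf_P1 {a b : ℝ} {f φ : ℝ × ℝ → ℝ} (hd : Dat a b f) (hφ : Sm (Box a b) φ) :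
    ∀ z ∈ Img a b f, P1 (Tf a b f φ) z = Tf a b f (Dp f φ) z := fun z hz => by
  have h := P1_comp (φ := φ) (X := Xf a b f) (z := z) (sm_diff (hφ _ (Xf_mem hz)))
    (sm_diff (Xf_sm hd z hz))
  unfold Tf Dp
  rw [h, Xf_P1 hd hz]

theorem Tf_P2 {a b : ℝ} {f φ : ℝ × ℝ → ℝ} (hd : Dat a b f) (hφ : Sm (Box a b) φ) :
    ∀ z ∈ Img a b f, P2 (Tf a b f φ) z = Tf a b f (Dy f φ) z := fun z hz => by
  have h := P2_comp (φ := φ) (X := Xf a b f) (z := z) (sm_diff (hφ _ (Xf_mem hz)))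
    (sm_diff (Xf_sm hd z hz))
  unfold Tf Dy
  rw [h, Xf_P2 hd hz]
  ring

theorem Tf_sm {a b : ℝ} {f φ : ℝ × ℝ → ℝ} (hd : Dat a b f) (hφ : Sm (Box a b) φ) :
    Sm (Img a b f) (Tf a b f φ) := fun z hz =>
  ContDiffAt.comp z (hφ _ (Xf_mem hz)) ((Xf_sm hd z hz).prodMk contDiffAt_snd)

theorem Dp_sm {a b : ℝ} {f φ : ℝ × ℝ → ℝ} (hd : Dat a b f) (hφ : Sm (Box a b) φ) :
    Sm (Box a b) (Dp f φ) := fun z hz =>
  (hφ.P1 z hz).mul ((hd.sm.P1.P1 z hz).inv (hd.pos z hz).ne')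

theorem Dy_sm {a b : ℝ} {f φ : ℝ × ℝ → ℝ} (hd : Dat a b f) (hφ : Sm (Box a b) φ) :
    Sm (Box a b) (Dy f φ) := fun z hz =>
  (hφ.P2 z hz).sub ((hφ.P1 z hz).mul ((hd.sm.P1.P2 z hz).mul
    ((hd.sm.P1.P1 z hz).inv (hd.pos z hz).ne')))

end P229.Leg
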