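import Vale.Agent.P229.B.LBd

/-! # P229 block B: bounds for the profile terms -/

open Set Filter Topology
open scoped ContDiff

namespace P229.Leg

noncomputable def b0xxx (P : Par) (x y : ℝ) : ℝ := P.epsc * kk y * (-(2 * x))
noncomputable def b0xy (P : Par) (x y : ℝ) : ℝ :=
  -(P.eps * deriv chi y * x) + P.epsc * deriv kk y * (x - x ^ 3 / 3)
noncomputable def bbxxx (P : Par) (x y : ℝ) : ℝ :=
  P.eta * P.epsc * (deriv (deriv (deriv kk)) (x / P.lam) / P.lam) * kk (y / P.lam)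
noncomputable def bbxy (P : Par) (x y : ℝ) : ℝ :=
  P.eta * P.epsc * deriv kk (x / P.lam) * deriv kk (y / P.lam)

theorem dx_b0xx (P : Par) (x y : ℝ) : HasDerivAt (fun t => b0xx P t y) (b0xxx P x y) x := by
  unfold b0xx b0xxx
  have h1 : HasDerivAt (fun t : ℝ => 1 - t ^ 2) (-(2 * x)) x := by
    have := (hasDerivAt_pow 2 x).const_sub 1
    simpa using this
  exact (h1.const_mul (P.epsc * kk y)).const_add _

theorem dx_b0y (P : Par) (x y : ℝ) : HasDerivAt (fun t => b0y P t y) (b0xy P x y) x := by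
  unfold b0y b0xy
  have h1 : HasDerivAt (fun t : ℝ => t ^ 2) (2 * x) x := by
    have := hasDerivAt_pow 2 x
    simpa using this
  have h2 : HasDerivAt (fun t : ℝ => t ^ 4) (4 * x ^ 3) x := by
    have := hasDerivAt_pow 4 x
    simpa using this
  have h3 : HasDerivAt (fun t : ℝ => -(P.eps * deriv chi y * t ^ 2 / 2))
      (-(P.eps * deriv chi y * (2 * x) / 2)) x := ((h1.const_mul _).div_const 2).neg
  have h4 : HasDerivAt (fun t : ℝ => P.epsc * deriv kk y * (t ^ 2 / 2 - t ^ 4 / 12))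
      (P.epsc * deriv kk y * (2 * x / 2 - 4 * x ^ 3 / 12)) x :=
    ((h1.div_const 2).sub (h2.div_const 12)).const_mul _
  refine (h3.add h4).congr_deriv ?_
  ring

theorem kk_d0 (x : ℝ) : HasDerivAt kk (deriv kk x) x :=
  (kk_contDiff.differentiable (by simp) x).hasDerivAt

theorem kk_dcd (n : ℕ) : ContDiff ℝ ∞ (deriv^[n] kk) := by
  induction n with
  | zero => exact kk_contDiff
  | succ n ih =>
    rw [Function.iterate_succ_apply']
    exact (contDiff_infty_iff_deriv.1 ih).2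

theorem kk_d2 (x : ℝ) : HasDerivAt (deriv (deriv kk)) (deriv (deriv (deriv kk)) x) x :=
  ((kk_dcd 2).differentiable (by simp) x).hasDerivAt

theorem dx_bbxx (P : Par) (hr : 0 < P.r) (x y : ℝ) :
    HasDerivAt (fun t => bbxx P t y) (bbxxx P x y) x := by
  unfold bbxx bbxxx
  have h1 : HasDerivAt (fun t : ℝ => t / P.lam) (1 / P.lam) x := (hasDerivAt_id x).div_const _
  have h2 := (kk_d2 (x / P.lam)).comp x h1
  refine ((h2.const_mul (P.eta * P.epsc)).mul_const (kk (y / P.lam))).congr_deriv ?_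
  ring

theorem dx_bby (P : Par) (hr : 0 < P.r) (x y : ℝ) :
    HasDerivAt (fun t => bby P t y) (bbxy P x y) x := by
  unfold bby bbxy
  have hl : P.lam ≠ 0 := by
    unfold Par.lam
    positivity
  have h1 : HasDerivAt (fun t : ℝ => t / P.lam) (1 / P.lam) x := (hasDerivAt_id x).div_const _
  have h2 := (kk_d0 (x / P.lam)).comp x h1
  refine ((h2.const_mul (P.eta * P.epsc * P.lam)).mul_const (deriv kk (y / P.lam))).congr_deriv ?_
  field_simp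

/-- one constant for all profile derivatives -/
theorem exists_D : ∃ D : ℝ, 1 ≤ D ∧ (∀ y, |kk y| ≤ D) ∧ (∀ y, |deriv kk y| ≤ D) ∧
    (∀ y, |deriv (deriv kk) y| ≤ D) ∧ (∀ y, |deriv (deriv (deriv kk)) y| ≤ D) ∧
    (∀ y, |chi y| ≤ D) ∧ (∀ y, |deriv chi y| ≤ D) := by
  obtain ⟨c0, h0, k0⟩ := iteratedDeriv_kk_bdd 0
  obtain ⟨c1, h1, k1⟩ := iteratedDeriv_kk_bdd 1
  obtain ⟨c2, h2, k2⟩ := iteratedDeriv_kk_bdd 2
  obtain ⟨c3, h3, k3⟩ := iteratedDeriv_kk_bdd 3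
  obtain ⟨c4, h4, k4⟩ := iteratedDeriv_chi_bdd 0
  obtain ⟨c5, h5, k5⟩ := iteratedDeriv_chi_bdd 1
  simp only [iteratedDeriv_zero, iteratedDeriv_one, iteratedDeriv_succ] at k0 k1 k2 k3 k4 k5
  refine ⟨c0 + c1 + c2 + c3 + c4 + c5, by linarith, fun y => ?_, fun y => ?_, fun y => ?_,
    fun y => ?_, fun y => ?_, fun y => ?_⟩
  · linarith [k0 y]
  · linarith [k1 y]
  · linarith [k2 y]
  · linarith [k3 y]
  · linarith [k4 y]
  · linarith [k5 y]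

theorem abs_mul3 {a b c A B C : ℝ} (ha : |a| ≤ A) (hb : |b| ≤ B) (hc : |c| ≤ C) :
    |a * b * c| ≤ A * B * C := by
  have hA := (abs_nonneg a).trans ha
  have hB := (abs_nonneg b).trans hb
  rw [abs_mul, abs_mul]
  exact mul_le_mul (mul_le_mul ha hb (abs_nonneg _) hA) hc (abs_nonneg _) (mul_nonneg hA hB)

/-- the parameter inequalities -/
theorem par_le {r : ℝ} (hr : 0 < r) (hr1 : r ≤ 1) {k b : ℕ} (hb : 20 * k + 10 ≤ b) :
    let P : Par := ⟨r, k, b⟩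
    0 < P.eps ∧ P.eps ≤ 1 ∧ 0 ≤ P.epsc ∧ P.epsc ≤ P.eps ∧ 0 ≤ P.eta * P.epsc ∧
      P.eta * P.epsc ≤ P.eps ∧ 0 < P.lam ∧ P.lam ≤ 1 ∧ P.eta * P.epsc ≤ P.eps * P.lam := by
  intro P
  have hr0 := hr.le
  have e1 : 0 < P.eps := by
    show 0 < r ^ (20 * k)
    positivity
  have e2 : P.eps ≤ 1 := by
    show r ^ (20 * k) ≤ 1
    exact pow_le_one₀ hr0 hr1
  have e3 : 0 ≤ P.epsc := by
    show 0 ≤ r ^ (20 * k + 2)
    positivity
  have e4 : P.epsc ≤ P.eps := by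
    show r ^ (20 * k + 2) ≤ r ^ (20 * k)
    exact pow_le_pow_of_le_one hr0 hr1 (by omega)
  have e5 : 0 ≤ P.eta * P.epsc := by
    show 0 ≤ r ^ b * r ^ (20 * k + 2)
    positivity
  have e6 : P.eta * P.epsc ≤ P.eps := by
    show r ^ b * r ^ (20 * k + 2) ≤ r ^ (20 * k)
    rw [← pow_add]
    exact pow_le_pow_of_le_one hr0 hr1 (by omega)
  have e7 : 0 < P.lam := by
    show 0 < r ^ (10 * k + 2)
    positivity
  have e8 : P.lam ≤ 1 := by
    show r ^ (10 * k + 2) ≤ 1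
    exact pow_le_one₀ hr0 hr1
  have e9 : P.eta * P.epsc ≤ P.eps * P.lam := by
    show r ^ b * r ^ (20 * k + 2) ≤ r ^ (20 * k) * r ^ (10 * k + 2)
    rw [← pow_add, ← pow_add]
    exact pow_le_pow_of_le_one hr0 hr1 (by omega)
  exact ⟨e1, e2, e3, e4, e5, e6, e7, e8, e9⟩

/-- the bound of the `b0` terms -/
theorem prof_b0 {D : ℝ} (hD : 1 ≤ D) (k0 : ∀ y, |kk y| ≤ D) (k1 : ∀ y, |deriv kk y| ≤ D)
    (c0 : ∀ y, |chi y| ≤ D) (c1 : ∀ y, |deriv chi y| ≤ D) (P : Par) (e1 : 0 < P.eps)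
    (hec : |P.epsc| ≤ P.eps) (x y : ℝ) (hx : |x| ≤ 3 / 2) :
    |b0 P x y| ≤ 5 * D * P.eps ∧ |b0x P x y| ≤ 5 * D * P.eps ∧ |b0xx P x y| ≤ 5 * D * P.eps ∧
      |b0y P x y| ≤ 5 * D * P.eps ∧ |b0xxx P x y| ≤ 5 * D * P.eps ∧
      |b0xy P x y| ≤ 5 * D * P.eps := by
  have hx2 : |x ^ 2| ≤ 9 / 4 := by
    rw [abs_pow]
    nlinarith [abs_nonneg x]
  have hx3 : |x ^ 3| ≤ 27 / 8 := by
    rw [abs_pow]
    have h := abs_nonneg x
    have h2 : |x| ^ 2 ≤ 9 / 4 := by nlinarith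
    calc |x| ^ 3 = |x| ^ 2 * |x| := by ring
      _ ≤ 9 / 4 * (3 / 2) := mul_le_mul h2 hx h (by norm_num)
      _ = _ := by norm_num
  have hx4 : |x ^ 4| ≤ 81 / 16 := by
    rw [abs_pow]
    have h := abs_nonneg x
    have h2 : |x| ^ 2 ≤ 9 / 4 := by nlinarith
    have h3 : 0 ≤ |x| ^ 2 := by positivity
    calc |x| ^ 4 = |x| ^ 2 * |x| ^ 2 := by ring
      _ ≤ 9 / 4 * (9 / 4) := mul_le_mul h2 h2 h3 (by norm_num)
      _ = _ := by norm_num
  have he : |P.eps| ≤ P.eps := (abs_of_pos e1).le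
  have p1 : |x ^ 2 / 2 - x ^ 4 / 12| ≤ 2 := by
    have a := abs_le.1 hx2
    have b := abs_le.1 hx4
    have c : 0 ≤ x ^ 2 := by positivity
    have d : 0 ≤ x ^ 4 := by positivity
    exact abs_le.2 ⟨by linarith [b.2], by linarith [a.2]⟩
  have p2 : |x - x ^ 3 / 3| ≤ 3 := by
    have a := abs_le.1 hx
    have b := abs_le.1 hx3
    exact abs_le.2 ⟨by linarith [a.1, b.2], by linarith [a.2, b.1]⟩
  have p3 : |1 - x ^ 2| ≤ 4 := by
    have a := abs_le.1 hx2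
    exact abs_le.2 ⟨by linarith [a.2], by linarith [sq_nonneg x]⟩
  have p4 : |-(2 * x)| ≤ 3 := by
    rw [abs_neg, abs_mul, abs_of_pos (by norm_num : (0 : ℝ) < 2)]
    linarith
  have p5 : |x ^ 2 / 2| ≤ 9 / 8 := by
    rw [abs_div, abs_of_pos (by norm_num : (0 : ℝ) < 2)]
    linarith
  have h3 : 0 ≤ P.eps * D := by positivity
  refine ⟨?_, ?_, ?_, ?_, ?_, ?_⟩
  · have h1 := abs_mul3 he (c0 y) p5
    have h2 := abs_mul3 hec (k0 y) p1
    have e : b0 P x y = -(P.eps * chi y * (x ^ 2 / 2)) + P.epsc * kk y * (x ^ 2 / 2 - x ^ 4 / 12) := by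
      unfold b0
      ring
    rw [e]
    refine (abs_add_le _ _).trans ?_
    rw [abs_neg]
    linarith
  · have h1 := abs_mul3 he (c0 y) hx
    have h2 := abs_mul3 hec (k0 y) p2
    unfold b0x
    refine (abs_add_le _ _).trans ?_
    rw [abs_neg]
    linarith
  · have h1 := abs_mul3 he (c0 y) (le_refl |(1 : ℝ)|)
    have h2 := abs_mul3 hec (k0 y) p3
    unfold b0xx
    refine (abs_add_le _ _).trans ?_
    rw [abs_neg]
    rw [mul_one, abs_one, mul_one] at h1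
    linarith
  · have h1 := abs_mul3 he (c1 y) p5
    have h2 := abs_mul3 hec (k1 y) p1
    have e : b0y P x y = -(P.eps * deriv chi y * (x ^ 2 / 2))
        + P.epsc * deriv kk y * (x ^ 2 / 2 - x ^ 4 / 12) := by
      unfold b0y
      ring
    rw [e]
    refine (abs_add_le _ _).trans ?_
    rw [abs_neg]
    linarith
  · have h2 := abs_mul3 hec (k0 y) p4
    unfold b0xxx
    refine h2.trans ?_
    linarith
  · have h1 := abs_mul3 he (c1 y) hx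
    have h2 := abs_mul3 hec (k1 y) p2
    unfold b0xy
    refine (abs_add_le _ _).trans ?_
    rw [abs_neg]
    linarith

/-- the bound of the bump terms -/
theorem prof_bb {D : ℝ} (k0 : ∀ y, |kk y| ≤ D) (k1 : ∀ y, |deriv kk y| ≤ D)
    (k2 : ∀ y, |deriv (deriv kk) y| ≤ D) (k3 : ∀ y, |deriv (deriv (deriv kk)) y| ≤ D) (P : Par)
    (e5 : 0 ≤ P.eta * P.epsc) (e6 : P.eta * P.epsc ≤ P.eps) (e7 : 0 < P.lam) (e8 : P.lam ≤ 1)
    (e9 : P.eta * P.epsc ≤ P.eps * P.lam) (x y : ℝ) :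
    |bb P x y| ≤ 1 * D * D * P.eps ∧ |bbx P x y| ≤ 1 * D * D * P.eps ∧
      |bbxx P x y| ≤ 1 * D * D * P.eps ∧ |bby P x y| ≤ 1 * D * D * P.eps ∧
      |bbxxx P x y| ≤ 1 * D * D * P.eps ∧ |bbxy P x y| ≤ 1 * D * D * P.eps := by
  have hl1 : P.lam ^ 2 ≤ 1 := pow_le_one₀ e7.le e8
  have hb0 : |P.eta * P.epsc| ≤ P.eps := by rw [abs_of_nonneg e5]; exact e6
  have hb1 : |P.eta * P.epsc * P.lam| ≤ P.eps := by
    rw [abs_mul, abs_of_pos e7]
    exact (mul_le_of_le_one_right (abs_nonneg _) e8).trans hb0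
  have hb2 : |P.eta * P.epsc * P.lam ^ 2| ≤ P.eps := by
    rw [abs_mul, abs_of_pos (pow_pos e7 2)]
    exact (mul_le_of_le_one_right (abs_nonneg _) hl1).trans hb0
  have hb3 : |P.eta * P.epsc / P.lam| ≤ P.eps := by
    rw [abs_div, abs_of_pos e7, abs_of_nonneg e5, div_le_iff₀ e7]
    exact e9
  refine ⟨?_, ?_, ?_, ?_, ?_, ?_⟩
  · have := abs_mul3 hb2 (k0 (x / P.lam)) (k0 (y / P.lam))
    unfold bb
    linarith
  · have := abs_mul3 hb1 (k1 (x / P.lam)) (k0 (y / P.lam))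
    unfold bbx
    linarith
  · have := abs_mul3 hb0 (k2 (x / P.lam)) (k0 (y / P.lam))
    unfold bbxx
    linarith
  · have := abs_mul3 hb1 (k0 (x / P.lam)) (k1 (y / P.lam))
    unfold bby
    linarith
  · have := abs_mul3 hb3 (k3 (x / P.lam)) (k0 (y / P.lam))
    have e : bbxxx P x y = P.eta * P.epsc / P.lam * deriv (deriv (deriv kk)) (x / P.lam)
        * kk (y / P.lam) := by
      unfold bbxxx
      ring
    rw [e]
    linarith
  · have := abs_mul3 hb0 (k1 (x / P.lam)) (k1 (y / P.lam))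
    unfold bbxy
    linarith

/-- bounds of all profile terms -/
theorem prof_bd : ∃ K : ℝ, 1 ≤ K ∧ ∀ (r : ℝ) (k b : ℕ), 0 < r → r ≤ 1 → 20 * k + 10 ≤ b →
    ∀ x y : ℝ, |x| ≤ 3 / 2 →
      |b0 ⟨r, k, b⟩ x y + bb ⟨r, k, b⟩ x y| ≤ K * Par.eps ⟨r, k, b⟩ ∧
      |b0x ⟨r, k, b⟩ x y + bbx ⟨r, k, b⟩ x y| ≤ K * Par.eps ⟨r, k, b⟩ ∧
      |b0xx ⟨r, k, b⟩ x y + bbxx ⟨r, k, b⟩ x y| ≤ K * Par.eps ⟨r, k, b⟩ ∧
      |b0y ⟨r, k, b⟩ x y + bby ⟨r, k, b⟩ x y| ≤ K * Par.eps ⟨r, k, b⟩ ∧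
      |b0xxx ⟨r, k, b⟩ x y + bbxxx ⟨r, k, b⟩ x y| ≤ K * Par.eps ⟨r, k, b⟩ ∧
      |b0xy ⟨r, k, b⟩ x y + bbxy ⟨r, k, b⟩ x y| ≤ K * Par.eps ⟨r, k, b⟩ := by
  obtain ⟨D, hD, k0, k1, k2, k3, c0, c1⟩ := exists_D
  refine ⟨5 * D + 1 * D * D, by nlinarith, ?_⟩
  intro r k b hr hr1 hb x y hx
  obtain ⟨e1, e2, e3, e4, e5, e6, e7, e8, e9⟩ := par_le hr hr1 hb
  have hec : |Par.epsc ⟨r, k, b⟩| ≤ Par.eps ⟨r, k, b⟩ := by rw [abs_of_nonneg e3]; exact e4
  obtain ⟨q0, q1, q2, q3, q4, q5⟩ := prof_b0 hD k0 k1 c0 c1 ⟨r, k, b⟩ e1 hec x y hx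
  obtain ⟨s0, s1, s2, s3, s4, s5⟩ := prof_bb k0 k1 k2 k3 ⟨r, k, b⟩ e5 e6 e7 e8 e9 x y
  refine ⟨?_, ?_, ?_, ?_, ?_, ?_⟩
  · exact (abs_add_le _ _).trans (by linarith)
  · exact (abs_add_le _ _).trans (by linarith)
  · exact (abs_add_le _ _).trans (by linarith)
  · exact (abs_add_le _ _).trans (by linarith)
  · exact (abs_add_le _ _).trans (by linarith)
  · exact (abs_add_le _ _).trans (by linarith)

end P229.Leg
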