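import Vale.Agent.P229.B.LProf

/-! # P229 block B: assembly -/

open Set Filter Topology
open scoped ContDiff

namespace P229.Leg

/-- the Darboux equation in terms of `P1`, `P2` -/
theorem zp_pde {P : Par} {mu C1 : ℝ} {z : ℝ → ℝ → ℝ} (h : GoodZ P mu C1 z) (x y : ℝ)
    (hx : |x| < 3 / 2) (hy : |y| < 22 / 10) :
    let F := Function.uncurry z
    let B := 1 + P.r ^ 2 * (b0 P x y + bb P x y)
    P1 (P1 F) (x, y) * (P2 (P2 F) (x, y) + B * (P.r ^ 2 * (b0x P x y + bbx P x y)) * P1 F (x, y)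
        - P.r ^ 2 * (b0y P x y + bby P x y) / B * P2 F (x, y))
      - (P2 (P1 F) (x, y) - P.r ^ 2 * (b0x P x y + bbx P x y) / B * P2 F (x, y)) ^ 2
    = -B * (b0xx P x y + bbxx P x y) * (mu - P.r ^ 2 * ((P1 F (x, y)) ^ 2
        + (P2 F (x, y) / B) ^ 2)) := by
  obtain ⟨hs, hr⟩ := zp_rel h
  have hO := isOpen_Box (17 / 10) (22 / 10)
  have rx := hr.dx hO hs
  have ry := hr.dy hO hs
  have rxx := rx.dx hO hs.P1
  have rxy := rx.dy hO hs.P1
  have ryy := ry.dy hO hs.P2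
  have hm : (x, y) ∈ BZ := ⟨hx.trans (by norm_num), hy⟩
  have := h.pde x y hx hy
  rw [rx x y hm, ry x y hm, rxx x y hm, rxy x y hm, ryy x y hm] at this
  exact this

/-- the Legendre algebra -/
theorem leg_alg (r mu B bx by' bxx p fy a al c d : ℝ) (ha : al * a = 1)
    (h : a * (d + B * (r ^ 2 * bx) * p - r ^ 2 * by' / B * fy) - (c - r ^ 2 * bx / B * fy) ^ 2
      = -B * bxx * (mu - r ^ 2 * (p ^ 2 + (fy / B) ^ 2))) :
    EEalg r mu B bx by' bxx p (-fy) al (-(c * al)) (-d + c ^ 2 * al) = 0 := by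
  unfold EEalg
  linear_combination (-al) * h + (d + B * (r ^ 2 * bx) * p - r ^ 2 * by' / B * fy) * ha

/-- the solved form of the equation -/
theorem leg_solve {r mu B bx by' bxx p uy upp upy uyy : ℝ}
    (h : EEalg r mu B bx by' bxx p uy upp upy uyy = 0) :
    uyy = -(2 * (r ^ 2 * bx * (-uy * B⁻¹)) * upy
      + (r ^ 2 * bx * (-uy * B⁻¹)) ^ 2 * upp
      - B * (mu - r ^ 2 * (p ^ 2 + (-uy * B⁻¹) ^ 2)) * bxx * upp
      + r ^ 2 * ((-uy * B⁻¹) * by' - B * p * bx)) := by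
  unfold EEalg at h
  linear_combination h

section main

variable {P : Par} {mu C1 : ℝ} {z : ℝ → ℝ → ℝ}

/-- the equation for the potential in the box `BU` -/
theorem uu_pde (hG : GoodZ P mu C1 z) (hC : 1 ≤ C1) (hr : 0 < P.r) (hδ2 : C1 * P.r ≤ 1 / 4000)
    {w : ℝ × ℝ} (hw : w ∈ BU) :
    |P1 (UU (Function.uncurry z)) w - w.1| ≤ 1 / 30 ∧
    EE P mu w.1 w.2 (P1 (UU (Function.uncurry z)) w) (P2 (UU (Function.uncurry z)) w)
      (P1 (P1 (UU (Function.uncurry z))) w) (P2 (P1 (UU (Function.uncurry z))) w)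
      (P2 (P2 (UU (Function.uncurry z))) w) = 0 := by
  set F := Function.uncurry z with hF
  have hZ : ZP P.r C1 F := zp_of_goodZ hG
  have hδ : 0 ≤ C1 * P.r := by positivity
  have hd := zp_dat hZ hδ hδ2
  have hI : w ∈ IM F := zp_range hZ hδ hδ2 hw
  have hm := Xf_mem hI
  have hsp := Xf_spec hI
  have h1 := zp_hx hZ hδ hδ2 _ _ hm
  rw [hsp.2] at h1
  have hX : |P1 (UU F) w - w.1| ≤ 1 / 30 := by
    rw [uu_P1 hd w hI, abs_sub_comm]
    exact h1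
  refine ⟨hX, ?_⟩
  have hp := hw.1
  have hy := hw.2
  have hXX : P1 (UU F) w = XX F w := uu_P1 hd w hI
  have hX2 : |XX F w| < 3 / 2 := by
    rw [hXX] at hX
    have a := abs_lt.1 hp
    have b := abs_le.1 hX
    exact abs_lt.2 ⟨by linarith [a.1, b.1], by linarith [a.2, b.2]⟩
  have hpde := zp_pde hG (XX F w) w.2 hX2 (hy.trans (by norm_num))
  simp only at hpde
  rw [← hF] at hpde
  have hpos := hd.pos _ hm
  have hal : al F (XX F w, w.2) * P1 (P1 F) (XX F w, w.2) = 1 := inv_mul_cancel₀ hpos.ne'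
  have h2 := leg_alg _ _ _ _ _ _ _ _ _ _ _ _ hal hpde
  rw [uu_P2 hd w hI, uu_P11 hd w hI, uu_P21 hd w hI, uu_P22 hd w hI, hXX]
  have hsp2 : P1 F (XX F w, w.2) = w.1 := hsp.2
  rw [hsp2] at h2
  exact h2

/-- the second `y`-derivative and its `p`-derivative -/
theorem uu_yy {K : ℝ} (hK1 : 1 ≤ K) (hG : GoodZ P mu C1 z) (hC : 1 ≤ C1) (hr : 0 < P.r)
    (hr1 : P.r ≤ 1) (hδ2 : C1 * P.r ≤ 1 / 4000) (hmu0 : 0 ≤ mu) (hmu : mu ≤ C1)
    (he0 : 0 < P.eps) (he1 : P.eps ≤ 1) (hKr : P.r * K ≤ 1 / 4)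
    (hK : ∀ x y : ℝ, |x| ≤ 3 / 2 →
      |b0 P x y + bb P x y| ≤ K * P.eps ∧ |b0x P x y + bbx P x y| ≤ K * P.eps ∧
      |b0xx P x y + bbxx P x y| ≤ K * P.eps ∧ |b0y P x y + bby P x y| ≤ K * P.eps ∧
      |b0xxx P x y + bbxxx P x y| ≤ K * P.eps ∧ |b0xy P x y + bbxy P x y| ≤ K * P.eps)
    {w : ℝ × ℝ} (hw : w ∈ BU) :
    |P2 (P2 (UU (Function.uncurry z))) w| ≤ 176 * (3 * C1 + 4 + 2 * K) ^ 7 * P.eps ∧
    |P1 (P2 (P2 (UU (Function.uncurry z)))) w| ≤ 176 * (3 * C1 + 4 + 2 * K) ^ 7 * P.eps := by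
  set F := Function.uncurry z with hF
  set L : ℝ := 3 * C1 + 4 + 2 * K with hL
  have hZ : ZP P.r C1 F := zp_of_goodZ hG
  have hδ : 0 ≤ C1 * P.r := by positivity
  have hd := zp_dat hZ hδ hδ2
  have hI : w ∈ IM F := zp_range hZ hδ hδ2 hw
  have hm := Xf_mem hI
  have hs := uu_sm hd
  obtain ⟨hX, -⟩ := uu_pde hG hC hr hδ2 hw
  rw [← hF] at hX
  have hp := hw.1
  have hX2 : |P1 (UU F) w| ≤ 3 / 2 := by
    have a := abs_lt.1 hp
    have b := abs_le.1 hX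
    exact abs_le.2 ⟨by linarith [a.1, b.1], by linarith [a.2, b.2]⟩
  -- bounds of the derivatives of the potential at `w`
  obtain ⟨al1, al2, al3⟩ := al_bd hZ hC hr hδ2 _ hm
  have bA : |P1 (P1 (UU F)) w| ≤ 2 := by
    rw [uu_P11 hd w hI]
    show |al F _| ≤ 2
    rw [abs_of_pos al2]
    exact al3
  have bM : |P2 (P1 (UU F)) w| ≤ 1 := by
    rw [uu_P21 hd w hI]
    show |-(P2 (P1 F) _ * al F _)| ≤ 1
    have h1 := zp_hxy hZ hδ _ hm
    rw [abs_neg, abs_mul, abs_of_pos al2]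
    calc _ ≤ (1 / 100 + 4 * (C1 * P.r)) * 2 := mul_le_mul h1 al3 al2.le (by positivity)
      _ ≤ 1 := by linarith
  have bW : |P2 (UU F) w| ≤ 3 * C1 := by
    rw [uu_P2 hd w hI]
    show |-P2 F _| ≤ _
    rw [abs_neg]
    exact zp_hy hZ hC hδ hδ2 _ hm
  have bA' : |P1 (P1 (P1 (UU F))) w| ≤ 1 := by
    rw [uu_P111 hd w hI]
    exact (dp_al_bd hZ hC hr hδ2 _ hm).trans (by linarith)
  have bM' : |P2 (P1 (P1 (UU F))) w| ≤ 1 := by
    rw [uu_P211 hd w hI]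
    exact (dy_al_bd hZ hC hr hδ2 _ hm).trans (by linarith)
  have hL1 : 1 ≤ L := by linarith
  have hL0 : 0 ≤ L := by linarith
  -- the functions along the line
  set X : ℝ → ℝ := fun s => P1 (UU F) (s, w.2) with hXdef
  have dX : HasDerivAt X (P1 (P1 (UU F)) w) w.1 := hasDerivAt_P1 (sm_diff (hs.P1 w hI))
  have dW : HasDerivAt (fun s => P2 (UU F) (s, w.2)) (P2 (P1 (UU F)) w) w.1 := by
    have := hasDerivAt_P1 (f := P2 (UU F)) (x := w.1) (y := w.2) (sm_diff (hs.P2 w hI))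
    rwa [P1P2_comm (hs w hI)] at this
  have dA : HasDerivAt (fun s => P1 (P1 (UU F)) (s, w.2)) (P1 (P1 (P1 (UU F))) w) w.1 :=
    hasDerivAt_P1 (sm_diff (hs.P1.P1 w hI))
  have dM : HasDerivAt (fun s => P2 (P1 (UU F)) (s, w.2)) (P2 (P1 (P1 (UU F))) w) w.1 := by
    have := hasDerivAt_P1 (f := P2 (P1 (UU F))) (x := w.1) (y := w.2) (sm_diff (hs.P1.P2 w hI))
    rwa [P1P2_comm (hs.P1 w hI)] at this
  have BW : BD (fun s => P2 (UU F) (s, w.2)) w.1 L 1 :=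
    ⟨_, dW, by rw [mul_one]; exact bW.trans (by linarith), by rw [mul_one]; exact bM.trans (by linarith)⟩
  have BA : BD (fun s => P1 (P1 (UU F)) (s, w.2)) w.1 L 1 :=
    ⟨_, dA, by rw [mul_one]; exact bA.trans (by linarith), by rw [mul_one]; exact bA'.trans (by linarith)⟩
  have BM : BD (fun s => P2 (P1 (UU F)) (s, w.2)) w.1 L 1 :=
    ⟨_, dM, by rw [mul_one]; exact bM.trans (by linarith), by rw [mul_one]; exact bM'.trans (by linarith)⟩
  obtain ⟨t0, t1, t2, t3, t4, t5⟩ := hK (P1 (UU F) w) w.2 hX2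
  -- profile functions along the line
  have key : ∀ (f f' : ℝ → ℝ), (∀ x, HasDerivAt f (f' x) x) → |f (P1 (UU F) w)| ≤ K * P.eps →
      |f' (P1 (UU F) w)| ≤ K * P.eps → BD (fun s => f (X s)) w.1 (2 * K) P.eps := by
    intro f f' h1 h2 h3
    refine ⟨f' (P1 (UU F) w) * P1 (P1 (UU F)) w, (h1 (X w.1)).comp w.1 dX, ?_, ?_⟩
    · have : 0 ≤ K * P.eps := (abs_nonneg _).trans h2
      show |f (P1 (UU F) w)| ≤ _
      linarith
    · rw [abs_mul]
      calc |f' (P1 (UU F) w)| * |P1 (P1 (UU F)) w| ≤ (K * P.eps) * 2 :=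
            mul_le_mul h3 bA (abs_nonneg _) ((abs_nonneg _).trans h3)
        _ = _ := by ring
  have Bb := key (fun x => b0 P x w.2 + bb P x w.2) (fun x => b0x P x w.2 + bbx P x w.2)
    (fun x => (dx_b0 P x w.2).add (dx_bb P hr x w.2)) t0 t1
  have Bbx := key (fun x => b0x P x w.2 + bbx P x w.2) (fun x => b0xx P x w.2 + bbxx P x w.2)
    (fun x => (dx_b0x P x w.2).add (dx_bbx P hr x w.2)) t1 t2
  have Bbxx := key (fun x => b0xx P x w.2 + bbxx P x w.2) (fun x => b0xxx P x w.2 + bbxxx P x w.2)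
    (fun x => (dx_b0xx P x w.2).add (dx_bbxx P hr x w.2)) t2 t4
  have Bby := key (fun x => b0y P x w.2 + bby P x w.2) (fun x => b0xy P x w.2 + bbxy P x w.2)
    (fun x => (dx_b0y P x w.2).add (dx_bby P hr x w.2)) t3 t5
  have hKL : 2 * K ≤ L := by linarith
  -- `B` and `1 / B`
  obtain ⟨b', hb1, hb2, hb3⟩ := Bb
  have hr2 : P.r ^ 2 ≤ P.r := by nlinarith
  have hsmall : P.r ^ 2 * (2 * K * P.eps) ≤ 1 / 2 := by
    calc P.r ^ 2 * (2 * K * P.eps) ≤ P.r * (2 * K * 1) :=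
          mul_le_mul hr2 (mul_le_mul_of_nonneg_left he1 (by linarith)) (by positivity) hr.le
      _ ≤ 1 / 2 := by linarith
  have hr20 : 0 ≤ P.r ^ 2 := by positivity
  have dB : HasDerivAt (fun s => 1 + P.r ^ 2 * (b0 P (X s) w.2 + bb P (X s) w.2))
      (P.r ^ 2 * b') w.1 := (hb1.const_mul (P.r ^ 2)).const_add 1
  have vB : |P.r ^ 2 * (b0 P (X w.1) w.2 + bb P (X w.1) w.2)| ≤ 1 / 2 := by
    rw [abs_mul, abs_of_nonneg hr20]
    exact (mul_le_mul_of_nonneg_left hb2 hr20).trans hsmall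
  have vB' : |P.r ^ 2 * b'| ≤ 1 / 2 := by
    rw [abs_mul, abs_of_nonneg hr20]
    exact (mul_le_mul_of_nonneg_left hb3 hr20).trans hsmall
  have vB1 := abs_le.1 vB
  have hBpos : 1 / 2 ≤ 1 + P.r ^ 2 * (b0 P (X w.1) w.2 + bb P (X w.1) w.2) := by linarith [vB1.1]
  have BB : BD (fun s => 1 + P.r ^ 2 * (b0 P (X s) w.2 + bb P (X s) w.2)) w.1 L 1 := by
    refine ⟨_, dB, ?_, ?_⟩
    · rw [mul_one, abs_of_pos (by linarith)]
      linarith [vB1.2]
    · rw [mul_one]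
      linarith
  have BiB : BD (fun s => (1 + P.r ^ 2 * (b0 P (X s) w.2 + bb P (X s) w.2))⁻¹) w.1 L 1 := by
    have hne : 1 + P.r ^ 2 * (b0 P (X w.1) w.2 + bb P (X w.1) w.2) ≠ 0 := by linarith
    have hinv : (1 + P.r ^ 2 * (b0 P (X w.1) w.2 + bb P (X w.1) w.2))⁻¹ ≤ 2 := by
      rw [inv_le_comm₀ (by linarith) (by norm_num)]
      linarith
    have hinv0 : 0 < (1 + P.r ^ 2 * (b0 P (X w.1) w.2 + bb P (X w.1) w.2))⁻¹ :=
      inv_pos.2 (by linarith)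
    refine ⟨_, dB.inv hne, ?_, ?_⟩
    · rw [mul_one, abs_of_pos hinv0]
      linarith
    · rw [mul_one, div_eq_mul_inv, abs_mul, abs_neg, ← inv_pow, abs_of_pos (pow_pos hinv0 2)]
      have h5 : (1 + P.r ^ 2 * (b0 P (X w.1) w.2 + bb P (X w.1) w.2))⁻¹ ^ 2 ≤ 4 := by nlinarith
      calc _ ≤ (1 / 2 : ℝ) * 4 := mul_le_mul vB' h5 (by positivity) (by norm_num)
        _ ≤ L := by linarith
  have hres := pde_bd (r := P.r) (mu := mu) (t := w.1) (e := P.eps) (L := L) hr.le hr1 he0.le he1 hL1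
    (by rw [abs_of_nonneg hmu0]; linarith) (hp.le.trans (by linarith)) BB BiB
    (Bbx.mono he0.le hKL) (Bby.mono he0.le hKL) (Bbxx.mono he0.le hKL) BW BA BM
  obtain ⟨n', hn1, hn2, hn3⟩ := hres
  -- identify with `P2 (P2 U)` along the line
  have hev : (fun s => P2 (P2 (UU F)) (s, w.2)) =ᶠ[𝓝 w.1] fun s =>
      -(2 * (P.r ^ 2 * (b0x P (X s) w.2 + bbx P (X s) w.2) * (-P2 (UU F) (s, w.2)
          * (1 + P.r ^ 2 * (b0 P (X s) w.2 + bb P (X s) w.2))⁻¹)) * P2 (P1 (UU F)) (s, w.2)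
        + (P.r ^ 2 * (b0x P (X s) w.2 + bbx P (X s) w.2) * (-P2 (UU F) (s, w.2)
          * (1 + P.r ^ 2 * (b0 P (X s) w.2 + bb P (X s) w.2))⁻¹)) ^ 2 * P1 (P1 (UU F)) (s, w.2)
        - (1 + P.r ^ 2 * (b0 P (X s) w.2 + bb P (X s) w.2)) * (mu - P.r ^ 2 * (s ^ 2
          + (-P2 (UU F) (s, w.2)
          * (1 + P.r ^ 2 * (b0 P (X s) w.2 + bb P (X s) w.2))⁻¹) ^ 2))
          * (b0xx P (X s) w.2 + bbxx P (X s) w.2) * P1 (P1 (UU F)) (s, w.2)
        + P.r ^ 2 * ((-P2 (UU F) (s, w.2)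
          * (1 + P.r ^ 2 * (b0 P (X s) w.2 + bb P (X s) w.2))⁻¹)
            * (b0y P (X s) w.2 + bby P (X s) w.2)
          - (1 + P.r ^ 2 * (b0 P (X s) w.2 + bb P (X s) w.2)) * s
            * (b0x P (X s) w.2 + bbx P (X s) w.2))) := by
    have hc : Tendsto (fun t : ℝ => (t, w.2)) (𝓝 w.1) (𝓝 w) := by
      have : Continuous fun t : ℝ => (t, w.2) := by fun_prop
      exact this.tendsto w.1
    filter_upwards [hc ((isOpen_Box _ _).mem_nhds hw)] with s hs'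
    have h1 := (uu_pde hG hC hr hδ2 hs').2
    rw [← hF] at h1
    exact leg_solve h1
  have hval := hev.self_of_nhds
  have hder : HasDerivAt (fun s => P2 (P2 (UU F)) (s, w.2)) n' w.1 := hn1.congr_of_eventuallyEq hev
  have hder2 : HasDerivAt (fun s => P2 (P2 (UU F)) (s, w.2)) (P1 (P2 (P2 (UU F))) w) w.1 :=
    hasDerivAt_P1 (sm_diff (hs.P2.P2 w hI))
  have he : P1 (P2 (P2 (UU F))) w = n' := hder2.unique hder
  refine ⟨?_, by rw [he]; exact hn3⟩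
  have h9 : P2 (P2 (UU F)) w = P2 (P2 (UU F)) (w.1, w.2) := rfl
  rw [h9]
  simp only at hval
  rw [hval]
  exact hn2

end main

end P229.Leg

namespace P229

open P229.Leg

/-- **Block B**: the Legendre transform of a good height function is a good potential. -/
theorem blockB : BlockB := by
  intro C1 k b hC hk hb
  obtain ⟨K, hK1, hK⟩ := prof_bd
  set C2 : ℝ := 176 * (3 * C1 + 4 + 2 * K) ^ 7 with hC2
  have hL : 9 ≤ 3 * C1 + 4 + 2 * K := by linarith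
  have hpow : (3 * C1 + 4 + 2 * K) * 9 ≤ (3 * C1 + 4 + 2 * K) ^ 7 := by
    have h1 : (9 : ℝ) ≤ (3 * C1 + 4 + 2 * K) ^ 6 := by
      calc (9 : ℝ) ≤ 9 ^ 6 := by norm_num
        _ ≤ _ := pow_le_pow_left₀ (by norm_num) hL 6
    calc (3 * C1 + 4 + 2 * K) * 9 ≤ (3 * C1 + 4 + 2 * K) * (3 * C1 + 4 + 2 * K) ^ 6 :=
          mul_le_mul_of_nonneg_left h1 (by linarith)
      _ = _ := by ring
  have hC2a : 100 * C1 ≤ C2 := by
    rw [hC2]
    linarith
  refine ⟨C2, min (1 / (4000 * C1)) (1 / (4 * K)), by linarith, by positivity, ?_⟩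
  intro r hr hrr mu z hmu1 hmu2 hG
  have hr1 : r < 1 / (4000 * C1) := lt_of_lt_of_le hrr (min_le_left _ _)
  have hr2 : r < 1 / (4 * K) := lt_of_lt_of_le hrr (min_le_right _ _)
  rw [lt_div_iff₀ (by positivity)] at hr1 hr2
  set P : Par := ⟨r, k, b⟩ with hP
  have hPr : P.r = r := rfl
  have hrP : 0 < P.r := hr
  have hδ2 : C1 * P.r ≤ 1 / 4000 := by
    rw [hPr]
    linarith
  have hKr : P.r * K ≤ 1 / 4 := by
    rw [hPr]
    linarith
  have hrle : r ≤ 1 := by nlinarith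
  have hrP1 : P.r ≤ 1 := hrle
  have hmu0 : 0 ≤ mu := (by positivity : (0 : ℝ) ≤ 1 / C1).trans hmu1
  obtain ⟨e1, e2, -⟩ := par_le hr hrle hb
  have hKK := hK r k b hr hrle hb
  set F := Function.uncurry z with hF
  have hZ : ZP P.r C1 F := zp_of_goodZ hG
  have hδ : 0 ≤ C1 * P.r := by positivity
  have hd := zp_dat hZ hδ hδ2
  have hrange : BU ⊆ IM F := zp_range hZ hδ hδ2
  have hO : IsOpen BU := isOpen_Box _ _
  have hsI := uu_sm hd
  have hs : Sm BU (UU F) := fun w hw => hsI w (hrange hw)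
  have r0 : Rel BU (fun p y => UU F (p, y)) (UU F) := fun x y _ => rfl
  have rx := r0.dx hO hs
  have ry := r0.dy hO hs
  have rxx := rx.dx hO hs.P1
  have rxy := rx.dy hO hs.P1
  have ryy := ry.dy hO hs.P2
  have rxxx := rxx.dx hO hs.P1.P1
  have rxxy := rxx.dy hO hs.P1.P1
  have rxyy := rxy.dy hO hs.P1.P2
  have rxxxx := rxxx.dx hO hs.P1.P1.P1
  have rxxxy := rxxx.dy hO hs.P1.P1.P1
  have hm : ∀ p y : ℝ, |p| < 144 / 100 → |y| < 208 / 100 → (p, y) ∈ BU := fun p y hp hy => ⟨hp, hy⟩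
  have h0 : ((0 : ℝ), (0 : ℝ)) ∈ BU := hm 0 0 (by norm_num) (by norm_num)
  have hX0 : XX F (0, 0) = 0 := by
    have h1 := Xf_unique hd (x := 0) (y := 0) (by norm_num) (by norm_num)
    rw [hZ.x0] at h1
    exact h1
  refine ⟨fun p y => UU F (p, y), ?_, ?_, ?_, ?_, ?_, ?_, ?_, ?_, ?_, ?_, ?_, ?_, ?_, ?_, ?_⟩
  · -- smooth
    have he : (Ioo (-(144 / 100) : ℝ) (144 / 100) ×ˢ Ioo (-(208 / 100) : ℝ) (208 / 100)) = BU := by
      ext w
      simp only [Set.mem_prod, Set.mem_Ioo, Box, Set.mem_ofPred_eq, abs_lt]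
    rw [he]
    exact fun w hw => (hs w hw).contDiffWithinAt
  · show (0 : ℝ) * XX F (0, 0) - F (XX F (0, 0), 0) = 0
    rw [hX0, hZ.F0]
    ring
  · rw [rx 0 0 h0, uu_P1 hd _ (hrange h0)]
    exact hX0
  · rw [ry 0 0 h0, uu_P2 hd _ (hrange h0)]
    show - P2 F (XX F (0, 0), 0) = 0
    rw [hX0, hZ.y0, neg_zero]
  · intro p y hp hy
    rw [rxx p y (hm p y hp hy), uu_P11 hd _ (hrange (hm p y hp hy))]
    exact (al_bd hZ hC hrP hδ2 _ (Xf_mem (hrange (hm p y hp hy)))).1.trans (by norm_num)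
  · intro p y hp hy
    rw [rxy p y (hm p y hp hy), uu_P21 hd _ (hrange (hm p y hp hy))]
    have hmem := Xf_mem (hrange (hm p y hp hy))
    obtain ⟨a1, a2, a3⟩ := al_bd hZ hC hrP hδ2 _ hmem
    have h1 := zp_hxy hZ hδ _ hmem
    have a4 := (abs_le.1 a1).2
    show |-(P2 (P1 F) _ * al F _)| ≤ 1 / 50
    rw [abs_neg, abs_mul, abs_of_pos a2]
    calc _ ≤ (1 / 100 + 4 * (C1 * P.r)) * (201 / 200) :=
          mul_le_mul h1 (by linarith) a2.le (by positivity)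
      _ ≤ 1 / 50 := by linarith
  · intro p y hp hy
    rw [rx p y (hm p y hp hy)]
    exact (uu_pde hG hC hrP hδ2 (hm p y hp hy)).1.trans (by norm_num)
  · intro p y hp hy
    rw [ry p y (hm p y hp hy), uu_P2 hd _ (hrange (hm p y hp hy))]
    show |-P2 F _| ≤ _
    rw [abs_neg]
    exact (zp_hy hZ hC hδ hδ2 _ (Xf_mem (hrange (hm p y hp hy)))).trans (by linarith)
  · intro p y hp hy
    rw [ryy p y (hm p y hp hy)]
    exact (uu_yy hK1 hG hC hrP hrP1 hδ2 hmu0 hmu2 e1 e2 hKr hKK (hm p y hp hy)).1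
  · intro p y hp hy
    rw [rxxx p y (hm p y hp hy), uu_P111 hd _ (hrange (hm p y hp hy))]
    refine (dp_al_bd hZ hC hrP hδ2 _ (Xf_mem (hrange (hm p y hp hy)))).trans ?_
    nlinarith
  · intro p y hp hy
    rw [rxxy p y (hm p y hp hy), uu_P211 hd _ (hrange (hm p y hp hy))]
    refine (dy_al_bd hZ hC hrP hδ2 _ (Xf_mem (hrange (hm p y hp hy)))).trans ?_
    nlinarith
  · intro p y hp hy
    have hw := hm p y hp hy
    have hcomm : P2 (P2 (P1 (UU F))) (p, y) = P1 (P2 (P2 (UU F))) (p, y) := by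
      have h1 : P2 (P2 (P1 (UU F))) (p, y) = P2 (P1 (P2 (UU F))) (p, y) :=
        P2_congr_on hO (fun w hw => (P1P2_comm (hs w hw)).symm) _ hw
      rw [h1, P1P2_comm (hs.P2 _ hw)]
    rw [rxyy p y hw, hcomm]
    exact (uu_yy hK1 hG hC hrP hrP1 hδ2 hmu0 hmu2 e1 e2 hKr hKK hw).2
  · intro p y hp hy
    rw [rxxxx p y (hm p y hp hy), uu_P1111 hd _ (hrange (hm p y hp hy))]
    refine (dp2_al_bd hZ hC hrP hδ2 _ (Xf_mem (hrange (hm p y hp hy)))).trans ?_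
    nlinarith
  · intro p y hp hy
    rw [rxxxy p y (hm p y hp hy), uu_P2111 hd _ (hrange (hm p y hp hy))]
    refine (dydp_al_bd hZ hC hrP hδ2 _ (Xf_mem (hrange (hm p y hp hy)))).trans ?_
    nlinarith
  · intro p y hp hy
    have hw := hm p y hp hy
    rw [rx p y hw, ry p y hw, rxx p y hw, rxy p y hw, ryy p y hw]
    exact (uu_pde hG hC hrP hδ2 hw).2

end P229
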